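import Vale.Agent.P113.Defs

/-!
Uniformly computable families of real numbers.
-/

open Set

namespace Vale.Agent.P113

attribute [fun_prop] Computable

section
variable {α β γ : Type} [Primcodable α] [Primcodable β] [Primcodable γ]
@[fun_prop] theorem c_id : Computable (fun x : α => x) := Computable.id
@[fun_prop] theorem c_const (b : β) : Computable (fun _ : α => b) := Computable.const b
@[fun_prop] theorem c_comp {f : β → γ} {g : α → β} (hf : Computable f) (hg : Computable g) :
    Computable (fun x => f (g x)) := hf.comp hg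
@[fun_prop] theorem c_pair {f : α → β} {g : α → γ} (hf : Computable f) (hg : Computable g) :
    Computable (fun x => (f x, g x)) := hf.pair hg
@[fun_prop] theorem c_fst {f : α → β × γ} (hf : Computable f) : Computable (fun x => (f x).1) :=
  Computable.fst.comp hf
@[fun_prop] theorem c_snd {f : α → β × γ} (hf : Computable f) : Computable (fun x => (f x).2) :=
  Computable.snd.comp hf
@[fun_prop] theorem c_add {f g : α → ℕ} (hf : Computable f) (hg : Computable g) :
    Computable (fun x => f x + g x) := Primrec.nat_add.to_comp.comp hf hg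
@[fun_prop] theorem c_mul {f g : α → ℕ} (hf : Computable f) (hg : Computable g) :
    Computable (fun x => f x * g x) := Primrec.nat_mul.to_comp.comp hf hg
@[fun_prop] theorem c_sub {f g : α → ℕ} (hf : Computable f) (hg : Computable g) :
    Computable (fun x => f x - g x) := Primrec.nat_sub.to_comp.comp hf hg
@[fun_prop] theorem c_cond {c : α → Bool} {f g : α → β} (hc : Computable c) (hf : Computable f)
    (hg : Computable g) : Computable (fun x => bif c x then f x else g x) :=
  Computable.cond hc hf hg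
@[fun_prop] theorem c_lt {f g : α → ℕ} (hf : Computable f) (hg : Computable g) :
    Computable (fun x => decide (f x < g x)) :=
  (Primrec.nat_lt.decide.to_comp).comp hf hg
@[fun_prop] theorem c_eq [DecidableEq β] {f g : α → β} (hf : Computable f) (hg : Computable g) :
    Computable (fun x => decide (f x = g x)) :=
  (Primrec.eq.decide.to_comp).comp hf hg
@[fun_prop] theorem c_cons {f : α → β} {g : α → List β} (hf : Computable f) (hg : Computable g) :
    Computable (fun x => f x :: g x) := Computable.list_cons.comp hf hg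
@[fun_prop] theorem c_append {f g : α → List β} (hf : Computable f) (hg : Computable g) :
    Computable (fun x => f x ++ g x) := Computable.list_append.comp hf hg
@[fun_prop] theorem c_length {f : α → List β} (hf : Computable f) :
    Computable (fun x => (f x).length) := Computable.list_length.comp hf
@[fun_prop] theorem c_tail {f : α → List β} (hf : Computable f) :
    Computable (fun x => (f x).tail) := Primrec.list_tail.to_comp.comp hf
@[fun_prop] theorem c_getD {f : α → List β} {g : α → ℕ} {d : α → β} (hf : Computable f)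
    (hg : Computable g) (hd : Computable d) : Computable (fun x => (f x).getD (g x) (d x)) := by
  have := Computable.option_getD (Computable.list_getElem?.comp hf hg) hd
  refine this.of_eq fun x => ?_
  simp [List.getD_eq_getElem?_getD]
@[fun_prop] theorem c_not {f : α → Bool} (hf : Computable f) : Computable (fun x => !f x) :=
  Primrec.not.to_comp.comp hf

theorem c_iterate {n : α → ℕ} {g : α → β} {h : α × β → β} (hn : Computable n)
    (hg : Computable g) (hh : Computable h) :
    Computable (fun a => (fun b => h (a, b))^[n a] (g a)) := by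
  have := Computable.nat_rec (f := n) (g := g) (h := fun a p => h (a, p.2)) hn hg
    (by unfold Computable₂; fun_prop)
  refine this.of_eq fun a => ?_
  induction n a with
  | zero => rfl
  | succ k ih => simp only [ih, Function.iterate_succ_apply']

@[fun_prop] theorem c_pow {f g : α → ℕ} (hf : Computable f) (hg : Computable g) :
    Computable (fun x => f x ^ g x) := by
  have := c_iterate (n := g) (g := fun _ => 1) (h := fun p : α × ℕ => p.2 * f p.1) hg
    (by fun_prop) (by fun_prop)
  refine this.of_eq fun a => ?_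
  induction g a with
  | zero => rfl
  | succ k ih => simp only [Function.iterate_succ_apply', ih, pow_succ]

@[fun_prop] theorem c_factorial {f : α → ℕ} (hf : Computable f) :
    Computable (fun x => (f x).factorial) := by
  have := Computable.nat_rec (f := f) (g := fun _ => 1) (h := fun _ p => (p.1 + 1) * p.2) hf
    (by fun_prop) (by unfold Computable₂; fun_prop)
  refine this.of_eq fun a => ?_
  induction f a with
  | zero => rfl
  | succ k ih => simp only [ih, Nat.factorial_succ]

end

abbrev Tri : Type := ℕ × ℕ × ℕ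

def tadd (x y : Tri) : Tri :=
  (x.1 * (y.2.2 + 1) + y.1 * (x.2.2 + 1), x.2.1 * (y.2.2 + 1) + y.2.1 * (x.2.2 + 1),
    x.2.2 * y.2.2 + x.2.2 + y.2.2)
def tmul (x y : Tri) : Tri :=
  (x.1 * y.1 + x.2.1 * y.2.1, x.1 * y.2.1 + x.2.1 * y.1, x.2.2 * y.2.2 + x.2.2 + y.2.2)
def tneg (x : Tri) : Tri := (x.2.1, x.1, x.2.2)
def tinv (x : Tri) : Tri := (x.2.2 + 1, 0, x.1 - x.2.1 - 1)
def tpow (x : Tri) (k : ℕ) : Tri := (fun y => tmul y x)^[k] (1, 0, 0)
def tbd (x : Tri) : ℕ := x.1 + x.2.1

theorem rat_tadd (x y : Tri) : rat (tadd x y) = rat x + rat y := by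
  unfold rat tadd
  have h1 : (x.2.2 : ℝ) + 1 ≠ 0 := by positivity
  have h2 : (y.2.2 : ℝ) + 1 ≠ 0 := by positivity
  have h3 : ((x.2.2 * y.2.2 + x.2.2 + y.2.2 : ℕ) : ℝ) + 1 = (x.2.2 + 1) * (y.2.2 + 1) := by
    push_cast; ring
  simp only [h3]
  push_cast
  field_simp
  ring

theorem rat_tmul (x y : Tri) : rat (tmul x y) = rat x * rat y := by
  unfold rat tmul
  have h1 : (x.2.2 : ℝ) + 1 ≠ 0 := by positivity
  have h2 : (y.2.2 : ℝ) + 1 ≠ 0 := by positivity
  have h3 : ((x.2.2 * y.2.2 + x.2.2 + y.2.2 : ℕ) : ℝ) + 1 = (x.2.2 + 1) * (y.2.2 + 1) := by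
    push_cast; ring
  simp only [h3]
  push_cast
  field_simp
  ring

theorem rat_tneg (x : Tri) : rat (tneg x) = -rat x := by
  unfold rat tneg
  simp only
  ring

theorem rat_pos_iff (x : Tri) : 0 < rat x ↔ x.2.1 < x.1 := by
  unfold rat
  have h1 : (0 : ℝ) < (x.2.2 : ℝ) + 1 := by positivity
  rw [div_pos_iff_of_pos_right h1, sub_pos, Nat.cast_lt]

theorem rat_tinv (x : Tri) (h : 0 < rat x) : rat (tinv x) = (rat x)⁻¹ := by
  rw [rat_pos_iff] at h
  unfold rat tinv
  simp only
  have : ((x.1 - x.2.1 - 1 : ℕ) : ℝ) + 1 = (x.1 : ℝ) - x.2.1 := by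
    rw [Nat.cast_sub (by omega), Nat.cast_sub h.le]; push_cast; ring
  rw [this, inv_div]
  push_cast
  ring

theorem rat_tpow (x : Tri) (k : ℕ) : rat (tpow x k) = rat x ^ k := by
  unfold tpow
  induction k with
  | zero => simp [rat]
  | succ k ih => rw [Function.iterate_succ_apply', rat_tmul, ih, pow_succ]

theorem abs_rat_le (x : Tri) : |rat x| ≤ tbd x := by
  unfold rat tbd
  have h1 : (1 : ℝ) ≤ (x.2.2 : ℝ) + 1 := by linarith [(Nat.cast_nonneg x.2.2 : (0 : ℝ) ≤ _)]
  rw [abs_div, abs_of_pos (by linarith : (0 : ℝ) < (x.2.2 : ℝ) + 1)]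
  refine (div_le_self (abs_nonneg _) h1).trans ?_
  push_cast
  rw [abs_le]
  constructor <;> linarith [(Nat.cast_nonneg x.1 : (0 : ℝ) ≤ _), (Nat.cast_nonneg x.2.1 : (0 : ℝ) ≤ _)]

theorem inv_le_rat (x : Tri) (h : 0 < rat x) : 1 / ((x.2.2 : ℝ) + 1) ≤ rat x := by
  rw [rat_pos_iff] at h
  unfold rat
  have h1 : (0 : ℝ) < (x.2.2 : ℝ) + 1 := by positivity
  refine div_le_div_of_nonneg_right ?_ h1.le
  have : (x.2.1 : ℝ) + 1 ≤ x.1 := by exact_mod_cast h
  linarith

section
variable {α β γ : Type} [Primcodable α] [Primcodable β] [Primcodable γ]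

@[fun_prop] theorem c_tadd {f g : α → Tri} (hf : Computable f) (hg : Computable g) :
    Computable (fun x => tadd (f x) (g x)) := by unfold tadd; fun_prop
@[fun_prop] theorem c_tmul {f g : α → Tri} (hf : Computable f) (hg : Computable g) :
    Computable (fun x => tmul (f x) (g x)) := by unfold tmul; fun_prop
@[fun_prop] theorem c_tneg {f : α → Tri} (hf : Computable f) :
    Computable (fun x => tneg (f x)) := by unfold tneg; fun_prop
@[fun_prop] theorem c_tinv {f : α → Tri} (hf : Computable f) :
    Computable (fun x => tinv (f x)) := by unfold tinv; fun_prop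
@[fun_prop] theorem c_tbd {f : α → Tri} (hf : Computable f) :
    Computable (fun x => tbd (f x)) := by unfold tbd; fun_prop
@[fun_prop] theorem c_tpow {f : α → Tri} {g : α → ℕ} (hf : Computable f) (hg : Computable g) :
    Computable (fun x => tpow (f x) (g x)) := by
  unfold tpow
  exact c_iterate (n := g) (g := fun _ => ((1, 0, 0) : Tri))
    (h := fun p : α × Tri => tmul p.2 (f p.1)) hg (by fun_prop) (by fun_prop)

/-- A uniformly computable family of reals. -/
def Approx (F : α → ℝ) : Prop :=
  ∃ g : α × ℕ → Tri, Computable g ∧ ∀ a n, |rat (g (a, n)) - F a| ≤ 1 / ((n : ℝ) + 1)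

theorem Approx.of_rat {g : α → Tri} (hg : Computable g) : Approx (fun a => rat (g a)) :=
  ⟨fun p => g p.1, by fun_prop, fun a n => by simp; positivity⟩

theorem Approx.congr {F G : α → ℝ} (h : Approx F) (e : ∀ a, F a = G a) : Approx G := by
  have : F = G := funext e
  rwa [← this]

theorem Approx.comp {F : β → ℝ} (h : Approx F) {k : α → β} (hk : Computable k) :
    Approx (fun a => F (k a)) := by
  obtain ⟨g, hg, H⟩ := h
  exact ⟨fun p => g (k p.1, p.2), by fun_prop, fun a n => H _ _⟩

theorem Approx.nat {g : α → ℕ} (hg : Computable g) : Approx (fun a => (g a : ℝ)) :=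
  (Approx.of_rat (g := fun a => (g a, 0, 0)) (by fun_prop)).congr fun a => by simp [rat]

theorem half_prec (n : ℕ) : 1 / (((2 * n + 1 : ℕ) : ℝ) + 1) + 1 / (((2 * n + 1 : ℕ) : ℝ) + 1)
    = 1 / ((n : ℝ) + 1) := by
  push_cast
  field_simp
  ring

theorem Approx.add {F G : α → ℝ} (hF : Approx F) (hG : Approx G) : Approx (fun a => F a + G a) := by
  obtain ⟨g, hg, H⟩ := hF
  obtain ⟨k, hk, K⟩ := hG
  refine ⟨fun p => tadd (g (p.1, 2 * p.2 + 1)) (k (p.1, 2 * p.2 + 1)), by fun_prop, fun a n => ?_⟩
  rw [rat_tadd, ← half_prec]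
  have h1 := H a (2 * n + 1)
  have h2 := K a (2 * n + 1)
  rw [abs_le] at *
  constructor <;> linarith [h1.1, h1.2, h2.1, h2.2]

theorem Approx.neg {F : α → ℝ} (hF : Approx F) : Approx (fun a => -F a) := by
  obtain ⟨g, hg, H⟩ := hF
  refine ⟨fun p => tneg (g p), by fun_prop, fun a n => ?_⟩
  rw [rat_tneg, ← abs_neg]
  convert H a n using 2
  ring

theorem Approx.bound {F : α → ℝ} (hF : Approx F) :
    ∃ B : α → ℕ, Computable B ∧ ∀ a, |F a| ≤ B a := by
  obtain ⟨g, hg, H⟩ := hF
  refine ⟨fun a => tbd (g (a, 0)) + 1, by fun_prop, fun a => ?_⟩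
  have h1 := H a 0
  have h2 := abs_rat_le (g (a, 0))
  push_cast at *
  rw [abs_le] at *
  constructor <;> linarith [h1.1, h1.2, h2.1, h2.2]

/-- Limits with a computable modulus. -/
theorem Approx.lim {F : α → ℝ} {G : α × ℕ → ℝ} (hG : Approx G)
    (h : ∀ a n, |G (a, n) - F a| ≤ 1 / ((n : ℝ) + 1)) : Approx F := by
  obtain ⟨g, hg, H⟩ := hG
  refine ⟨fun p => g ((p.1, 2 * p.2 + 1), 2 * p.2 + 1), by fun_prop, fun a n => ?_⟩
  rw [← half_prec]
  have h1 := H (a, 2 * n + 1) (2 * n + 1)
  have h2 := h a (2 * n + 1)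
  rw [abs_le] at *
  constructor <;> linarith [h1.1, h1.2, h2.1, h2.2]

/-- Composition with a map having a computable local Lipschitz bound. -/
theorem Approx.lip {F : α → ℝ} (hF : Approx F) {φ : α → ℝ → ℝ}
    (hφ : Approx (fun p : α × Tri => φ p.1 (rat p.2))) {L : α → ℕ} (hL : Computable L)
    (h : ∀ a y, |y - F a| ≤ 1 → |φ a y - φ a (F a)| ≤ L a * |y - F a|) :
    Approx (fun a => φ a (F a)) := by
  obtain ⟨g, hg, H⟩ := hF
  refine Approx.lim (G := fun p => φ p.1 (rat (g (p.1, (L p.1 + 1) * (p.2 + 1)))))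
    (hφ.comp (k := fun p : α × ℕ => (p.1, g (p.1, (L p.1 + 1) * (p.2 + 1)))) (by fun_prop))
    fun a n => ?_
  have h1 := H a ((L a + 1) * (n + 1))
  have hn : (0 : ℝ) ≤ n := Nat.cast_nonneg n
  have hl : (0 : ℝ) ≤ L a := Nat.cast_nonneg _
  have h2 : 1 / ((((L a + 1) * (n + 1) : ℕ) : ℝ) + 1) ≤ 1 := by
    rw [div_le_one (by positivity)]
    linarith [(Nat.cast_nonneg ((L a + 1) * (n + 1)) : (0 : ℝ) ≤ _)]
  refine (h a _ (h1.trans h2)).trans ?_
  refine (mul_le_mul_of_nonneg_left h1 hl).trans ?_
  push_cast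
  rw [mul_one_div, div_le_div_iff₀ (by positivity) (by positivity)]
  nlinarith [mul_nonneg hn hl]

theorem Approx.rat_mul {F : α → ℝ} (hF : Approx F) {g : α → Tri} (hg : Computable g) :
    Approx (fun a => rat (g a) * F a) := by
  refine hF.lip (φ := fun a y => rat (g a) * y) ?_ (L := fun a => tbd (g a)) (by fun_prop) ?_
  · exact (Approx.of_rat (g := fun p : α × Tri => tmul (g p.1) p.2) (by fun_prop)).congr
      fun p => rat_tmul _ _
  · intro a y _
    rw [← mul_sub, abs_mul]
    exact mul_le_mul_of_nonneg_right (abs_rat_le _) (abs_nonneg _)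

theorem Approx.mul {F G : α → ℝ} (hF : Approx F) (hG : Approx G) : Approx (fun a => F a * G a) := by
  obtain ⟨B, hB, HB⟩ := hG.bound
  refine hF.lip (φ := fun a y => y * G a) ?_ hB ?_
  · exact (hG.comp (k := fun p : α × Tri => p.1) (by fun_prop)).rat_mul
      (g := fun p : α × Tri => p.2) (by fun_prop)
  · intro a y _
    rw [← sub_mul, abs_mul, mul_comm]
    exact mul_le_mul_of_nonneg_right (HB a) (abs_nonneg _)

theorem Approx.pow {F : α → ℝ} (hF : Approx F) {k : α → ℕ} (hk : Computable k) :
    Approx (fun a => F a ^ k a) := by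
  obtain ⟨B, hB, HB⟩ := hF.bound
  refine hF.lip (φ := fun a y => y ^ k a) ?_ (L := fun a => k a * (B a + 1) ^ (k a - 1))
    (by fun_prop) ?_
  · exact (Approx.of_rat (g := fun p : α × Tri => tpow p.2 (k p.1)) (by fun_prop)).congr
      fun p => rat_tpow _ _
  · intro a y hy
    refine (abs_pow_sub_pow_le y (F a) (k a)).trans ?_
    have h1 : max |y| |F a| ≤ (B a : ℝ) + 1 := by
      have := HB a
      refine max_le ?_ (by linarith)
      have : |y| ≤ |y - F a| + |F a| := by simpa using abs_add_le (y - F a) (F a)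
      linarith
    have h2 : max |y| |F a| ^ (k a - 1) ≤ ((B a : ℝ) + 1) ^ (k a - 1) :=
      pow_le_pow_left₀ (le_max_of_le_left (abs_nonneg _)) h1 _
    push_cast
    calc |y - F a| * (k a : ℝ) * max |y| |F a| ^ (k a - 1)
        ≤ |y - F a| * (k a : ℝ) * ((B a : ℝ) + 1) ^ (k a - 1) := by gcongr
      _ = _ := by ring

theorem Approx.cond {F G : α → ℝ} (hF : Approx F) (hG : Approx G) {c : α → Bool}
    (hc : Computable c) : Approx (fun a => bif c a then F a else G a) := by
  obtain ⟨g, hg, H⟩ := hF
  obtain ⟨k, hk, K⟩ := hG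
  refine ⟨fun p => bif c p.1 then g p else k p, by fun_prop, fun a n => ?_⟩
  cases h : c a <;> simp only [h, Bool.cond_true, Bool.cond_false]
  · exact K a n
  · exact H a n

theorem Approx.sum_range {F : α × ℕ → ℝ} (hF : Approx F) {N : α → ℕ} (hN : Computable N) :
    Approx (fun a => ∑ j ∈ Finset.range (N a), F (a, j)) := by
  obtain ⟨g, hg, H⟩ := hF
  let S : (α × ℕ) → ℕ → Tri := fun p k =>
    Nat.rec (motive := fun _ => Tri) (0, 0, 0) (fun j s => tadd s (g ((p.1, j), p.2))) k
  have hS : Computable (fun q : α × ℕ => S (q.1, (N q.1 + 1) * (q.2 + 1)) (N q.1)) := by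
    exact Computable.nat_rec (f := fun q : α × ℕ => N q.1) (g := fun _ => ((0, 0, 0) : Tri))
      (h := fun q r => tadd r.2 (g ((q.1, r.1), (N q.1 + 1) * (q.2 + 1)))) (by fun_prop)
      (by fun_prop) (by unfold Computable₂; fun_prop)
  refine ⟨_, hS, fun a n => ?_⟩
  have key : ∀ m k : ℕ, |rat (S (a, m) k) - ∑ j ∈ Finset.range k, F (a, j)| ≤
      k * (1 / ((m : ℝ) + 1)) := by
    intro m k
    induction k with
    | zero => simp [S, rat]
    | succ k ih =>
      have e : S (a, m) (k + 1) = tadd (S (a, m) k) (g ((a, k), m)) := rfl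
      rw [e, rat_tadd, Finset.sum_range_succ]
      have h1 := H (a, k) m
      push_cast
      rw [abs_le] at *
      constructor <;> linarith [h1.1, h1.2, ih.1, ih.2]
  refine (key _ _).trans ?_
  have hn : (0 : ℝ) ≤ n := Nat.cast_nonneg n
  have hl : (0 : ℝ) ≤ N a := Nat.cast_nonneg _
  push_cast
  rw [mul_one_div, div_le_div_iff₀ (by positivity) (by positivity)]
  nlinarith [mul_nonneg hn hl]

theorem Approx.sum_list [Inhabited β] {F : α × β → ℝ} (hF : Approx F) {l : α → List β}
    (hl : Computable l) : Approx (fun a => ((l a).map fun b => F (a, b)).sum) := by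
  have := (hF.comp (k := fun p : α × ℕ => (p.1, (l p.1).getD p.2 default))
    (by fun_prop)).sum_range (N := fun a => (l a).length) (by fun_prop)
  refine this.congr fun a => ?_
  simp only
  generalize l a = L
  induction L with
  | nil => simp
  | cons b L ih =>
    rw [List.length_cons, Finset.sum_range_succ']
    simp only [List.getD_cons_succ, List.getD_cons_zero, List.map_cons, List.sum_cons, ih]
    ring

theorem Approx.of_computableReal {ν : ℝ} (h : ComputableReal ν) : Approx (fun _ : α => ν) := by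
  obtain ⟨g, hg, H⟩ := h
  exact ⟨fun p => g p.2, by fun_prop, fun a n => H n⟩

end

end Vale.Agent.P113
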