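import Mathlib

/-!
Definitions used in the statement of P113 (halting detection by forced Navier-Stokes flows).
-/

open MeasureTheory Set
open scoped ContDiff

namespace Vale.Agent.P113

/-- A deterministic one-tape Turing machine: states `Fin (nQ+1)` (start state `0`), tape symbols
`Fin (nS+1)` (blank `0`), a set of halting states, and a transition table returning the new state,
the symbol written and the head move (`0` left, `1` stay, `2` right). -/
structure TM where
  nQ : ℕ
  nS : ℕ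
  halting : Fin (nQ + 1) → Bool
  delta : Fin (nQ + 1) → Fin (nS + 1) → Fin (nQ + 1) × Fin (nS + 1) × Fin 3

/-- A configuration: state, head position, two-sided tape. -/
structure TM.Cfg (M : TM) where
  state : Fin (M.nQ + 1)
  head : ℤ
  tape : ℤ → Fin (M.nS + 1)

/-- One step of the machine. -/
def TM.step (M : TM) (c : M.Cfg) : M.Cfg where
  state := (M.delta c.state (c.tape c.head)).1
  head := c.head + (((M.delta c.state (c.tape c.head)).2.2 : ℕ) : ℤ) - 1
  tape := Function.update c.tape c.head (M.delta c.state (c.tape c.head)).2.1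

/-- The initial configuration: the word `w` on cells `0, 1, …`, blanks elsewhere, head at `0`. -/
def TM.init (M : TM) (w : List (Fin (M.nS + 1))) : M.Cfg where
  state := 0
  head := 0
  tape := fun i => if 0 ≤ i then w.getD i.toNat 0 else 0

/-- `M` reaches a halting state on input `w` after finitely many steps, possibly none. -/
def TM.Halts (M : TM) (w : List (Fin (M.nS + 1))) : Prop :=
  ∃ n : ℕ, M.halting (M.step^[n] (M.init w)).state = true

/-- The finite description of a pair (machine, input): list of halting flags, transition table,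
input word. -/
def TM.code (M : TM) (w : List (Fin (M.nS + 1))) :
    List Bool × List (List (ℕ × ℕ × ℕ)) × List ℕ :=
  (List.ofFn M.halting,
    List.ofFn fun q => List.ofFn fun a =>
      (((M.delta q a).1 : ℕ), ((M.delta q a).2.1 : ℕ), ((M.delta q a).2.2 : ℕ)),
    w.map Fin.val)

/-- The rational number `(a - b) / (c + 1)` named by a triple of natural numbers. -/
noncomputable def rat (x : ℕ × ℕ × ℕ) : ℝ := ((x.1 : ℝ) - (x.2.1 : ℝ)) / ((x.2.2 : ℝ) + 1)

/-- A computable real number. -/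
def ComputableReal (ν : ℝ) : Prop :=
  ∃ g : ℕ → ℕ × ℕ × ℕ, Computable g ∧ ∀ n : ℕ, |rat (g n) - ν| ≤ 1 / ((n : ℝ) + 1)

/-- The flat torus `(ℝ/ℤ)³`. -/
abbrev T3 : Type := Fin 3 → UnitAddCircle

/-- The covering map `ℝ³ → T³`. -/
def proj (x : Fin 3 → ℝ) : T3 := fun i => (x i : UnitAddCircle)

/-- The lift of a scalar field on `ℝ × T³` to space-time `ℝ⁴` (coordinate `0` is time). -/
def lift (g : ℝ → T3 → ℝ) (p : Fin 4 → ℝ) : ℝ := g (p 0) (proj fun i => p i.succ)

/-- Smoothness of a scalar field on `ℝ × T³`. -/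
def Smooth (g : ℝ → T3 → ℝ) : Prop := ContDiff ℝ ∞ (lift g)

/-- The derivative in the `i`-th coordinate direction of `ℝ⁴`. -/
noncomputable def pd (i : Fin 4) (F : (Fin 4 → ℝ) → ℝ) (p : Fin 4 → ℝ) : ℝ :=
  deriv (fun s : ℝ => F (Function.update p i s)) (p i)

/-- The mixed derivative along a list of coordinate directions. -/
noncomputable def mixed (ds : List (Fin 4)) (F : (Fin 4 → ℝ) → ℝ) : (Fin 4 → ℝ) → ℝ :=
  ds.foldr pd F

/-- The program `c` computes the force `f`: given a list of directions, a component, a rational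
space-time point and a rational accuracy `ε > 0`, it halts and returns a rational number within
`ε` of that mixed derivative of that component at that point. -/
def Computes (c : Nat.Partrec.Code) (f : ℝ → T3 → Fin 3 → ℝ) : Prop :=
  ∀ (ds : List (Fin 4)) (i : Fin 3) (t x y z ε : ℕ × ℕ × ℕ), 0 < rat ε →
    ∃ r : ℕ × ℕ × ℕ,
      c.eval (Encodable.encode (ds, i, t, x, y, z, ε)) = Part.some (Encodable.encode r) ∧
      |rat r - mixed ds (lift fun s a => f s a i) ![rat t, rat x, rat y, rat z]| ≤ rat ε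

/-- `g'` is the derivative of `g : T³ → ℝ` in the `j`-th coordinate direction, at every point. -/
def HasDir (j : Fin 3) (g g' : T3 → ℝ) : Prop :=
  ∀ x : T3, HasDerivAt (fun s : ℝ => g (x + proj (Pi.single j s))) (g' x) 0

/-- Joint continuity on `[0,T] × T³`. -/
def ContOn (T : ℝ) (g : ℝ → T3 → ℝ) : Prop :=
  ContinuousOn (fun p : ℝ × T3 => g p.1 p.2) (Icc 0 T ×ˢ univ)

/-- `(v, q)` is a classical solution on `[0,T] × T³` of the forced Navier-Stokes system with
viscosity `ν`, force `f` and zero initial velocity. `vt`, `dv`, `ddv`, `dq` are the time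
derivative, the first and second spatial derivatives of `v` and the gradient of `q`. -/
def Classical (ν : ℝ) (f : ℝ → T3 → Fin 3 → ℝ) (T : ℝ) (v : ℝ → T3 → Fin 3 → ℝ)
    (q : ℝ → T3 → ℝ) : Prop :=
  ∃ (vt : Fin 3 → ℝ → T3 → ℝ) (dv : Fin 3 → Fin 3 → ℝ → T3 → ℝ)
    (ddv : Fin 3 → Fin 3 → Fin 3 → ℝ → T3 → ℝ) (dq : Fin 3 → ℝ → T3 → ℝ),
    (∀ i, ∀ t ∈ Icc 0 T, ∀ x, HasDerivWithinAt (fun s => v s x i) (vt i t x) (Icc 0 T) t) ∧
    (∀ i j, ∀ t ∈ Icc 0 T, HasDir j (fun x => v t x i) (dv i j t)) ∧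
    (∀ i j k, ∀ t ∈ Icc 0 T, HasDir k (dv i j t) (ddv i j k t)) ∧
    (∀ j, ∀ t ∈ Icc 0 T, HasDir j (q t) (dq j t)) ∧
    (∀ i, ContOn T fun t x => v t x i) ∧ (∀ i, ContOn T (vt i)) ∧
    (∀ i j, ContOn T (dv i j)) ∧ (∀ i j k, ContOn T (ddv i j k)) ∧
    ContOn T q ∧ (∀ j, ContOn T (dq j)) ∧
    (∀ i, ∀ t ∈ Icc 0 T, ∀ x, vt i t x + ∑ j, v t x j * dv i j t x =
      -dq i t x + ν * ∑ j, ddv i j j t x + f t x i) ∧
    (∀ t ∈ Icc 0 T, ∀ x, ∑ j, dv j j t x = 0) ∧
    (∀ x, v 0 x = 0) ∧
    (∀ t ∈ Icc 0 T, ∫ x, q t x = 0)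

/-- `X : [0,∞) → ℝ³` is (a lift of) the particle trajectory of `a ∈ T³` in the velocity field `u`. -/
def IsTraj (u : ℝ → T3 → Fin 3 → ℝ) (a : T3) (X : ℝ → Fin 3 → ℝ) : Prop :=
  proj (X 0) = a ∧ ∀ t ∈ Ici (0 : ℝ), HasDerivWithinAt X (u t (proj (X t))) (Ici 0) t

end Vale.Agent.P113
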