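import Vale.Agent.P113.Defs

/-!
Uniqueness of classical solutions by the energy method.
-/

open MeasureTheory Set Filter Topology

namespace Vale.Agent.P113

theorem proj_add (a b : Fin 3 → ℝ) : proj (a + b) = proj a + proj b := by
  funext i; simp [proj]

theorem proj_zero : proj 0 = 0 := by
  funext i; simp [proj]

theorem proj_single_zero (j : Fin 3) : proj (Pi.single j (0 : ℝ)) = 0 := by
  simp [proj_zero]

theorem continuous_proj : Continuous proj := by
  unfold proj
  fun_prop

theorem proj_surj : Function.Surjective proj := by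
  intro x
  refine ⟨fun i => (x i).out, ?_⟩
  funext i
  exact QuotientAddGroup.out_eq' (x i)

theorem cont_integrable {g : T3 → ℝ} (h : Continuous g) : Integrable g :=
  h.integrable_of_hasCompactSupport (HasCompactSupport.of_compactSpace g)

theorem HasDir.at {j : Fin 3} {g g' : T3 → ℝ} (h : HasDir j g g') (x : T3) (s : ℝ) :
    HasDerivAt (fun s : ℝ => g (x + proj (Pi.single j s))) (g' (x + proj (Pi.single j s))) s := by
  have h1 := h (x + proj (Pi.single j s))
  have h2 : HasDerivAt (fun r : ℝ => r - s) 1 s := (hasDerivAt_id s).sub_const s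
  have h3 := HasDerivAt.comp_of_eq s h1 h2 (by simp)
  rw [mul_one] at h3
  have e : ((fun s_1 : ℝ => g (x + proj (Pi.single j s) + proj (Pi.single j s_1))) ∘ fun r => r - s)
      = fun s : ℝ => g (x + proj (Pi.single j s)) := by
    funext r
    simp only [Function.comp]
    rw [add_assoc, ← proj_add, ← Pi.single_add]
    simp
  rwa [e] at h3

theorem HasDir.integral_zero {j : Fin 3} {g g' : T3 → ℝ} (h : HasDir j g g') (hg : Continuous g)
    (hg' : Continuous g') : ∫ x, g' x = 0 := by
  obtain ⟨C, hC⟩ := isCompact_univ.exists_bound_of_continuousOn hg'.continuousOn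
  have h1 := hasDerivAt_integral_of_dominated_loc_of_deriv_le (μ := (volume : Measure T3))
    (F := fun s x => g (x + proj (Pi.single j s))) (x₀ := (0 : ℝ)) (s := univ) univ_mem
    (F' := fun s x => g' (x + proj (Pi.single j s))) (bound := fun _ => C)
    (Eventually.of_forall fun s => (hg.comp (by fun_prop)).aestronglyMeasurable)
    (cont_integrable (hg.comp (by fun_prop))) (hg'.comp (by fun_prop)).aestronglyMeasurable
    (Eventually.of_forall fun x s _ => hC _ (mem_univ _)) (integrable_const C)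
    (Eventually.of_forall fun x s _ => h.at x s)
  have h2 := h1.2
  simp only [integral_add_right_eq_self] at h2
  exact h2.unique (hasDerivAt_const _ _)

theorem HasDir.mul {j : Fin 3} {g g' k k' : T3 → ℝ} (h : HasDir j g g') (h' : HasDir j k k') :
    HasDir j (fun x => g x * k x) (fun x => g' x * k x + g x * k' x) := fun x => by
  have := (h x).fun_mul (h' x)
  simpa [proj_zero] using this

theorem HasDir.add {j : Fin 3} {g g' k k' : T3 → ℝ} (h : HasDir j g g') (h' : HasDir j k k') :
    HasDir j (fun x => g x + k x) (fun x => g' x + k' x) := fun x => (h x).fun_add (h' x)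

theorem HasDir.sub {j : Fin 3} {g g' k k' : T3 → ℝ} (h : HasDir j g g') (h' : HasDir j k k') :
    HasDir j (fun x => g x - k x) (fun x => g' x - k' x) := fun x => (h x).fun_sub (h' x)

theorem HasDir.const_mul {j : Fin 3} {g g' : T3 → ℝ} (c : ℝ) (h : HasDir j g g') :
    HasDir j (fun x => c * g x) (fun x => c * g' x) := fun x => (h x).const_mul c

theorem HasDir.sum3 {j : Fin 3} {g g' : Fin 3 → T3 → ℝ} (h : ∀ i, HasDir j (g i) (g' i)) :
    HasDir j (fun x => ∑ i, g i x) (fun x => ∑ i, g' i x) := fun x =>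
  HasDerivAt.fun_sum fun i _ => h i x

theorem HasDir.unique {j : Fin 3} {g g' g'' : T3 → ℝ} (h : HasDir j g g') (h' : HasDir j g g'') :
    g' = g'' := funext fun x => (h x).unique (h' x)

theorem const_of_dir_zero {g : T3 → ℝ} (h : ∀ j, HasDir j g fun _ => 0) (x : T3) : g x = g 0 := by
  have key : ∀ j y s, g (y + proj (Pi.single j s)) = g y := by
    intro j y s
    have := is_const_of_deriv_eq_zero (f := fun s : ℝ => g (y + proj (Pi.single j s)))
      (fun s => ((h j).at y s).differentiableAt) (fun s => ((h j).at y s).deriv) s 0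
    simpa [proj_zero] using this
  obtain ⟨a, rfl⟩ := proj_surj x
  have e : proj a = 0 + proj (Pi.single 0 (a 0)) + proj (Pi.single 1 (a 1)) +
      proj (Pi.single 2 (a 2)) := by
    rw [zero_add, ← proj_add, ← proj_add]
    congr 1
    funext i
    fin_cases i <;> simp
  rw [e, key, key, key]

theorem ContOn.slice {T : ℝ} {g : ℝ → T3 → ℝ} (h : ContOn T g) {t : ℝ} (ht : t ∈ Icc 0 T) :
    Continuous (g t) := by
  have : Continuous ((fun p : ℝ × T3 => g p.1 p.2) ∘ fun x => (t, x)) :=
    h.comp_continuous (by fun_prop) fun x => ⟨ht, mem_univ _⟩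
  exact this

theorem ContOn.slice_t {T : ℝ} {g : ℝ → T3 → ℝ} (h : ContOn T g) (x : T3) :
    ContinuousOn (fun t => g t x) (Icc 0 T) := by
  have : ContinuousOn ((fun p : ℝ × T3 => g p.1 p.2) ∘ fun t => (t, x)) (Icc 0 T) :=
    ContinuousOn.comp h (by fun_prop) fun t ht => ⟨ht, mem_univ _⟩
  exact this

theorem ContOn.bound {T : ℝ} {g : ℝ → T3 → ℝ} (h : ContOn T g) :
    ∃ C, ∀ t ∈ Icc 0 T, ∀ x, |g t x| ≤ C := by
  obtain ⟨C, hC⟩ := (isCompact_Icc.prod isCompact_univ).exists_bound_of_continuousOn h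
  exact ⟨C, fun t ht x => hC (t, x) ⟨ht, mem_univ _⟩⟩

theorem gronwall_zero {T C : ℝ} {E E' : ℝ → ℝ} (hc : ContinuousOn E (Icc 0 T))
    (hd : ∀ t ∈ Ioo 0 T, HasDerivAt E (E' t) t) (hle : ∀ t ∈ Ioo 0 T, E' t ≤ C * E t)
    (h0 : E 0 = 0) {t : ℝ} (ht : t ∈ Icc 0 T) : E t ≤ 0 := by
  have hd' : ∀ t ∈ Ioo 0 T, HasDerivAt (fun t => Real.exp (-C * t) * E t)
      (Real.exp (-C * t) * (-C) * E t + Real.exp (-C * t) * E' t) t := by
    intro t ht
    have h1 : HasDerivAt (fun t : ℝ => -C * t) (-C) t := by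
      simpa using (hasDerivAt_id t).const_mul (-C)
    exact h1.exp.fun_mul (hd t ht)
  have ha : AntitoneOn (fun t => Real.exp (-C * t) * E t) (Icc 0 T) := by
    refine antitoneOn_of_deriv_nonpos (convex_Icc 0 T)
      (ContinuousOn.fun_mul (by fun_prop) hc) ?_ ?_
    · rw [interior_Icc]
      exact fun t ht => (hd' t ht).differentiableAt.differentiableWithinAt
    · rw [interior_Icc]
      intro t ht
      rw [(hd' t ht).deriv]
      nlinarith [hle t ht, Real.exp_pos (-C * t)]
  have := ha ⟨le_rfl, ht.1.trans ht.2⟩ ht ht.1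
  simp only [h0, mul_zero] at this
  by_contra hne
  push Not at hne
  nlinarith [Real.exp_pos (-C * t), mul_pos (Real.exp_pos (-C * t)) hne]

theorem energy_pointwise (ν C : ℝ) (hν : 0 ≤ ν) (w wt v2 dr : Fin 3 → ℝ) (r : ℝ)
    (d1 d2 dw : Fin 3 → Fin 3 → ℝ) (ddw : Fin 3 → Fin 3 → ℝ)
    (hC : ∀ i j, |d1 i j| ≤ C) (hdiv2 : ∑ j, d2 j j = 0) (hdivw : ∑ j, dw j j = 0)
    (heq : ∀ i, wt i = -(∑ j, (w j * d1 i j + v2 j * dw i j)) - dr i + ν * ∑ j, ddw i j) :
    ∑ i, 2 * w i * wt i ≤ ∑ j, ((-1) * (d2 j j * (∑ i, w i * w i) +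
        v2 j * ∑ i, (dw i j * w i + w i * dw i j)) - 2 * (dw j j * r + w j * dr j) +
        2 * ν * ∑ i, (dw i j * dw i j + w i * ddw i j)) + 6 * C * ∑ i, w i * w i := by
  have hb : ∀ i j, -(w i * w j * d1 i j) ≤ C * (w i * w i + w j * w j) / 2 := by
    intro i j
    have h1 := abs_le.1 (hC i j)
    nlinarith [mul_nonneg (sub_nonneg.2 h1.2) (sq_nonneg (w i - w j)),
      mul_nonneg (by linarith [h1.1] : 0 ≤ C + d1 i j) (sq_nonneg (w i + w j))]
  simp only [heq, Fin.sum_univ_three] at *
  have e2 : d2 2 2 = -d2 0 0 - d2 1 1 := by linarith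
  have ew : dw 2 2 = -dw 0 0 - dw 1 1 := by linarith
  have hsq : 0 ≤ ν * (dw 0 0 * dw 0 0 + dw 1 0 * dw 1 0 + dw 2 0 * dw 2 0 + dw 0 1 * dw 0 1 +
      dw 1 1 * dw 1 1 + dw 2 1 * dw 2 1 + dw 0 2 * dw 0 2 + dw 1 2 * dw 1 2 + dw 2 2 * dw 2 2) := by
    refine mul_nonneg hν ?_
    nlinarith [mul_self_nonneg (dw 0 0), mul_self_nonneg (dw 1 0), mul_self_nonneg (dw 2 0),
      mul_self_nonneg (dw 0 1), mul_self_nonneg (dw 1 1), mul_self_nonneg (dw 2 1),
      mul_self_nonneg (dw 0 2), mul_self_nonneg (dw 1 2), mul_self_nonneg (dw 2 2)]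
  rw [e2]
  have hr : (dw 0 0 + dw 1 1 + dw 2 2) * r = 0 := by rw [hdivw, zero_mul]
  linarith [hb 0 0, hb 0 1, hb 0 2, hb 1 0, hb 1 1, hb 1 2, hb 2 0, hb 2 1, hb 2 2]

theorem classical_unique {ν T : ℝ} (hν : 0 ≤ ν) (hT : 0 < T) {f v1 v2 : ℝ → T3 → Fin 3 → ℝ}
    {q1 q2 : ℝ → T3 → ℝ} (h1 : Classical ν f T v1 q1) (h2 : Classical ν f T v2 q2) :
    ∀ t ∈ Icc 0 T, v1 t = v2 t ∧ q1 t = q2 t := by
  obtain ⟨vt1, d1, dd1, dq1, a1, b1, c1, e1, cv1, cvt1, cd1, cdd1, cq1, cdq1, eq1, div1, in1, m1⟩ := h1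
  obtain ⟨vt2, d2, dd2, dq2, a2, b2, c2, e2, cv2, cvt2, cd2, cdd2, cq2, cdq2, eq2, div2, in2, m2⟩ := h2
  set w : Fin 3 → ℝ → T3 → ℝ := fun i t x => v1 t x i - v2 t x i with hw
  set wt : Fin 3 → ℝ → T3 → ℝ := fun i t x => vt1 i t x - vt2 i t x with hwt
  have cw : ∀ i, ContOn T (w i) := fun i => ContinuousOn.fun_sub (cv1 i) (cv2 i)
  have cwt : ∀ i, ContOn T (wt i) := fun i => ContinuousOn.fun_sub (cvt1 i) (cvt2 i)
  have cE : ContOn T (fun t x => ∑ i, w i t x * w i t x) :=
    continuousOn_finsetSum _ fun i _ => ContinuousOn.fun_mul (cw i) (cw i)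
  have cE' : ContOn T (fun t x => ∑ i, 2 * w i t x * wt i t x) :=
    continuousOn_finsetSum _ fun i _ =>
      ContinuousOn.fun_mul (ContinuousOn.fun_mul continuousOn_const (cw i)) (cwt i)
  obtain ⟨B, hB⟩ := cE.bound
  obtain ⟨B', hB'⟩ := cE'.bound
  obtain ⟨C, hC⟩ : ∃ C, ∀ i j, ∀ t ∈ Icc 0 T, ∀ x, |d1 i j t x| ≤ C := by
    choose C hC using fun i j => (cd1 i j).bound
    obtain ⟨D, hD⟩ := (Set.finite_range fun p : Fin 3 × Fin 3 => C p.1 p.2).bddAbove
    exact ⟨D, fun i j t ht x => (hC i j t ht x).trans (hD ⟨(i, j), rfl⟩)⟩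
  have hE : ∀ t ∈ Icc 0 T, ∫ x, ∑ i, w i t x * w i t x ≤ 0 := by
    intro t ht
    refine gronwall_zero (C := 6 * C) (E := fun t => ∫ x, ∑ i, w i t x * w i t x)
      (E' := fun t => ∫ x, ∑ i, 2 * w i t x * wt i t x) ?_ ?_ ?_ ?_ ht
    · exact continuousOn_of_dominated (bound := fun _ => B)
        (fun t ht => (cE.slice ht).aestronglyMeasurable)
        (fun t ht => Eventually.of_forall fun x => hB t ht x) (integrable_const B)
        (Eventually.of_forall fun x => cE.slice_t x)
    · intro t ht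
      have hI : ∀ s ∈ Ioo 0 T, s ∈ Icc 0 T := fun s hs => Ioo_subset_Icc_self hs
      refine (hasDerivAt_integral_of_dominated_loc_of_deriv_le (μ := (volume : Measure T3))
        (F := fun t x => ∑ i, w i t x * w i t x) (s := Ioo 0 T) (Ioo_mem_nhds ht.1 ht.2)
        (F' := fun t x => ∑ i, 2 * w i t x * wt i t x) (bound := fun _ => B') ?_
        (cont_integrable (cE.slice (hI t ht))) (cE'.slice (hI t ht)).aestronglyMeasurable
        (Eventually.of_forall fun x s hs => hB' s (hI s hs) x) (integrable_const B')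
        (Eventually.of_forall fun x s hs => ?_)).2
      · filter_upwards [Ioo_mem_nhds ht.1 ht.2] with s hs
        exact (cE.slice (hI s hs)).aestronglyMeasurable
      · refine HasDerivAt.fun_sum fun i _ => ?_
        have k : HasDerivAt (fun s => w i s x) (wt i s x) s :=
          ((a1 i s (hI s hs) x).fun_sub (a2 i s (hI s hs) x)).hasDerivAt (Icc_mem_nhds hs.1 hs.2)
        exact (k.fun_mul k).congr_deriv (by ring)
    · intro t ht
      replace ht : t ∈ Icc 0 T := Ioo_subset_Icc_self ht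
      have hw' : ∀ i j, HasDir j (w i t) (fun x => d1 i j t x - d2 i j t x) :=
        fun i j => (b1 i j t ht).sub (b2 i j t ht)
      have hdw : ∀ i j, HasDir j (fun x => d1 i j t x - d2 i j t x)
          (fun x => dd1 i j j t x - dd2 i j j t x) :=
        fun i j => (c1 i j j t ht).sub (c2 i j j t ht)
      have hH := fun j => ((((b2 j j t ht).mul (HasDir.sum3 fun i =>
        (hw' i j).mul (hw' i j))).const_mul (-1)).sub
        (((hw' j j).mul ((e1 j t ht).sub (e2 j t ht))).const_mul 2)).add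
        ((HasDir.sum3 fun i => (hw' i j).mul (hdw i j)).const_mul (2 * ν))
      have k1 := fun i => (cw i).slice ht
      have k2 := fun i => (cv2 i).slice ht
      have k3 := fun i j => (cd1 i j).slice ht
      have k4 := fun i j => (cd2 i j).slice ht
      have k5 := fun i j k => (cdd1 i j k).slice ht
      have k6 := fun i j k => (cdd2 i j k).slice ht
      have k7 := cq1.slice ht
      have k8 := cq2.slice ht
      have k9 := fun i => (cdq1 i).slice ht
      have k10 := fun i => (cdq2 i).slice ht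
      have hG := fun j => (hH j).integral_zero (by fun_prop) (by fun_prop)
      have hsum := integral_finsetSum (μ := (volume : Measure T3)) Finset.univ
        (fun j _ => cont_integrable (g := fun x => (-1) * (d2 j j t x * (∑ i, w i t x * w i t x) +
          v2 t x j * ∑ i, ((d1 i j t x - d2 i j t x) * w i t x +
            w i t x * (d1 i j t x - d2 i j t x))) -
          2 * ((d1 j j t x - d2 j j t x) * (q1 t x - q2 t x) + w j t x * (dq1 j t x - dq2 j t x)) +
          2 * ν * ∑ i, ((d1 i j t x - d2 i j t x) * (d1 i j t x - d2 i j t x) +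
            w i t x * (dd1 i j j t x - dd2 i j j t x))) (by fun_prop))
      simp only [hG, Finset.sum_const_zero] at hsum
      rw [← integral_const_mul, ← zero_add (∫ x, 6 * C * _), ← hsum, ← integral_add
        (cont_integrable (by fun_prop)) (cont_integrable (by fun_prop))]
      refine integral_mono (cont_integrable (cE'.slice ht)) (cont_integrable (by fun_prop))
        fun x => ?_
      refine energy_pointwise ν C hν (fun i => w i t x) (fun i => wt i t x) (v2 t x)
        (fun i => dq1 i t x - dq2 i t x) (q1 t x - q2 t x) (fun i j => d1 i j t x)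
        (fun i j => d2 i j t x) (fun i j => d1 i j t x - d2 i j t x)
        (fun i j => dd1 i j j t x - dd2 i j j t x) (fun i j => hC i j t ht x) (div2 t ht x) ?_ ?_
      · rw [Finset.sum_sub_distrib, div1 t ht x, div2 t ht x, sub_zero]
      · intro i
        have p1 := eq1 i t ht x
        have p2 := eq2 i t ht x
        simp only [Fin.sum_univ_three, hw, hwt] at *
        linarith
    · simp [hw, in1, in2]
  have hv : ∀ t ∈ Icc 0 T, v1 t = v2 t := by
    intro t ht
    funext x i
    by_contra hne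
    have hpos : 0 < ∑ i, w i t x * w i t x :=
      Finset.sum_pos' (fun i _ => mul_self_nonneg _)
        ⟨i, Finset.mem_univ _, mul_self_pos.2 (sub_ne_zero.2 hne)⟩
    have := integral_pos_of_integrable_nonneg_nonzero (μ := (volume : Measure T3)) (cE.slice ht)
      (cont_integrable (cE.slice ht))
      (fun x => Finset.sum_nonneg fun i _ => mul_self_nonneg _) hpos.ne'
    linarith [hE t ht]
  intro t ht
  refine ⟨hv t ht, ?_⟩
  have hd : ∀ i j, d1 i j t = d2 i j t := fun i j =>
    (b1 i j t ht).unique (by rw [hv t ht]; exact b2 i j t ht)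
  have hdd : ∀ i j k, dd1 i j k t = dd2 i j k t := fun i j k =>
    (c1 i j k t ht).unique (by rw [hd]; exact c2 i j k t ht)
  have hvt : ∀ i x, vt1 i t x = vt2 i t x := fun i x =>
    (uniqueDiffOn_Icc hT t ht).eq_deriv _ (a1 i t ht x)
      ((a2 i t ht x).congr (fun s hs => by rw [hv s hs]) (by rw [hv t ht]))
  have hq : ∀ j, HasDir j (fun x => q1 t x - q2 t x) fun _ => 0 := by
    intro j
    convert (e1 j t ht).sub (e2 j t ht) using 2 with x
    have p1 := eq1 j t ht x
    have p2 := eq2 j t ht x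
    simp only [hd, hdd, hvt, hv t ht] at p1
    linarith
  have hc := const_of_dir_zero hq
  have hi : ∫ x, (q1 t x - q2 t x) = 0 := by
    rw [integral_sub (cont_integrable (cq1.slice ht)) (cont_integrable (cq2.slice ht)),
      m1 t ht, m2 t ht, sub_zero]
  have hc' : (fun x => q1 t x - q2 t x) = fun _ => q1 t 0 - q2 t 0 := funext hc
  rw [hc', integral_const, smul_eq_zero] at hi
  have h0 : q1 t 0 - q2 t 0 = 0 := by
    refine hi.resolve_left ?_
    simp [Measure.real, volume_pi, Measure.pi_univ]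
  funext x
  have := hc x
  linarith

end Vale.Agent.P113
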