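import Vale.Agent.P113.Eff
import Vale.Agent.P113.Uniq

/-!
Periodic smooth fields on `ℝ⁴`, their descent to the torus, and the force they require.
-/

open MeasureTheory Set Filter Topology
open scoped ContDiff

namespace Vale.Agent.P113

def Per (F : R4 → ℝ) : Prop :=
  ∀ p q : R4, p 0 = q 0 → (∀ i : Fin 3, (p i.succ : UnitAddCircle) = q i.succ) → F p = F q

noncomputable def desc (F : R4 → ℝ) (t : ℝ) (x : T3) : ℝ := F (Fin.cons t fun i => (x i).out)

theorem desc_proj {F : R4 → ℝ} (h : Per F) (t : ℝ) (y : Fin 3 → ℝ) :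
    desc F t (proj y) = F (Fin.cons t y) :=
  h _ _ rfl fun i => by
    simp only [Fin.cons_succ]
    exact QuotientAddGroup.out_eq' _

theorem lift_desc {F : R4 → ℝ} (h : Per F) : lift (desc F) = F := by
  funext p
  unfold lift
  rw [desc_proj h]
  congr 1
  exact Fin.cons_self_tail p

theorem Per.pd {F : R4 → ℝ} (h : Per F) (i : Fin 4) : Per (pd i F) := by
  intro p q h0 h1
  unfold Vale.Agent.P113.pd
  have e : (fun s : ℝ => F (Function.update p i s)) =
      fun s => (fun s => F (Function.update q i s)) (s + (q i - p i)) := by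
    funext s
    refine h _ _ ?_ fun j => ?_
    · by_cases hi : i = 0
      · subst hi; simp [h0]
      · simp [Function.update_of_ne (Ne.symm hi), h0]
    · by_cases hi : i = j.succ
      · subst hi
        simp only [Function.update_self]
        rw [AddCircle.coe_add, AddCircle.coe_sub, h1 j]
        simp
      · simp [Function.update_of_ne (Ne.symm hi), h1 j]
  rw [e, deriv_comp_add_const (fun s => F (Function.update q i s))]
  congr 1
  ring

theorem continuous_cons : Continuous (fun z : ℝ × (Fin 3 → ℝ) => (Fin.cons z.1 z.2 : R4)) := by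
  refine continuous_pi fun i => ?_
  refine Fin.cases ?_ (fun j => ?_) i
  · simpa using continuous_fst
  · simp only [Fin.cons_succ]; fun_prop

theorem contDiff_cons : ContDiff ℝ ∞ (fun z : ℝ × (Fin 3 → ℝ) => (Fin.cons z.1 z.2 : R4)) := by
  refine contDiff_pi.2 fun i => ?_
  refine Fin.cases ?_ (fun j => ?_) i
  · simpa using contDiff_fst
  · simp only [Fin.cons_succ]; fun_prop

theorem continuous_desc {F : R4 → ℝ} (h : Per F) (hc : Continuous F) :
    Continuous (fun z : ℝ × T3 => desc F z.1 z.2) := by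
  have hq : IsOpenQuotientMap (Prod.map (id : ℝ → ℝ) proj) :=
    IsOpenQuotientMap.id.prodMap
      (IsOpenQuotientMap.piMap fun _ : Fin 3 => QuotientAddGroup.isOpenQuotientMap_mk)
  rw [← hq.continuous_comp_iff]
  have : ((fun z : ℝ × T3 => desc F z.1 z.2) ∘ Prod.map (id : ℝ → ℝ) proj) =
      F ∘ fun z : ℝ × (Fin 3 → ℝ) => (Fin.cons z.1 z.2 : R4) := by
    funext z
    exact desc_proj h _ _
  rw [this]
  exact hc.comp continuous_cons

theorem contOn_desc {F : R4 → ℝ} (h : Per F) (hc : ContDiff ℝ ∞ F) (T : ℝ) : ContOn T (desc F) :=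
  (continuous_desc h hc.continuous).continuousOn

theorem hasDir_desc {F : R4 → ℝ} (h : Per F) (hc : ContDiff ℝ ∞ F) (j : Fin 3) (t : ℝ) :
    HasDir j (desc F t) (desc (pd j.succ F) t) := by
  intro x
  obtain ⟨y, rfl⟩ := proj_surj x
  have h1 := hasDerivAt_pd0 (smooth_diff hc) j.succ (Fin.cons t y)
  have h2 : HasDerivAt (fun s : ℝ => y j + s) 1 0 := (hasDerivAt_id 0).const_add _
  have h3 := HasDerivAt.comp_of_eq 0 h1 h2 (by simp)
  rw [mul_one] at h3
  rw [desc_proj (h.pd _)]
  have e : (fun s : ℝ => desc F t (proj y + proj (Pi.single j s))) =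
      (fun s => F (Function.update (Fin.cons t y) j.succ s)) ∘ fun s : ℝ => y j + s := by
    funext s
    simp only [Function.comp]
    rw [← proj_add, desc_proj h, ← Fin.cons_update]
    congr 2
    funext k
    by_cases hk : k = j
    · subst hk; simp
    · simp [hk]
  rwa [e]

theorem hasDerivAt_desc {F : R4 → ℝ} (hc : ContDiff ℝ ∞ F) (t : ℝ) (x : T3) :
    HasDerivAt (fun s => desc F s x) (desc (pd 0 F) t x) t := by
  have h1 := hasDerivAt_pd0 (smooth_diff hc) 0 (Fin.cons t fun i => (x i).out)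
  simp only [Fin.update_cons_zero, Fin.cons_zero] at h1
  exact h1

noncomputable def forceR (ν : ℝ) (U : Fin 3 → R4 → ℝ) (i : Fin 3) (p : R4) : ℝ :=
  pd 0 (U i) p + ∑ j : Fin 3, U j p * pd j.succ (U i) p -
    ν * ∑ j : Fin 3, pd j.succ (pd j.succ (U i)) p

theorem per_forceR {ν : ℝ} {U : Fin 3 → R4 → ℝ} (h : ∀ i, Per (U i)) (i : Fin 3) :
    Per (forceR ν U i) := by
  intro p q h0 h1
  unfold forceR
  rw [(h i).pd 0 p q h0 h1]
  congr 2
  · exact Finset.sum_congr rfl fun j _ => by rw [h j p q h0 h1, (h i).pd _ p q h0 h1]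
  · exact Finset.sum_congr rfl fun j _ => ((h i).pd _).pd _ p q h0 h1

theorem eff_forceR {α : Type} [Primcodable α] [Inhabited α] {ν : ℝ} (hν : ComputableReal ν)
    {U : α → Fin 3 → R4 → ℝ} (h : ∀ i, Eff fun a => U a i) (i : Fin 3) :
    Eff fun a => forceR ν (U a) i := by
  have := (((h i).pd 0).add ((((h 0).mul ((h i).pd 1)).add ((h 1).mul ((h i).pd 2))).add
    ((h 2).mul ((h i).pd 3)))).sub ((Eff.const (Approx.of_computableReal hν)).mul
      (((((h i).pd 1).pd 1).add (((h i).pd 2).pd 2)).add (((h i).pd 3).pd 3)))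
  refine this.congr fun a p => ?_
  simp only [forceR, Fin.sum_univ_three]
  rfl

theorem classical_desc (ν T : ℝ) {U : Fin 3 → R4 → ℝ} (h : ∀ i, Per (U i))
    (hs : ∀ i, ContDiff ℝ ∞ (U i)) (hdiv : ∀ p, ∑ j : Fin 3, pd j.succ (U j) p = 0)
    (h0 : ∀ i p, p 0 = 0 → U i p = 0) :
    Classical ν (fun t x i => desc (forceR ν U i) t x) T (fun t x i => desc (U i) t x)
      (fun _ _ => 0) := by
  refine ⟨fun i => desc (pd 0 (U i)), fun i j => desc (pd j.succ (U i)),
    fun i j k => desc (pd k.succ (pd j.succ (U i))), fun _ _ _ => 0, ?_, ?_, ?_, ?_, ?_, ?_, ?_,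
    ?_, ?_, ?_, ?_, ?_, ?_, ?_⟩
  · exact fun i t _ x => (hasDerivAt_desc (hs i) t x).hasDerivWithinAt
  · exact fun i j t _ => hasDir_desc (h i) (hs i) j t
  · exact fun i j k t _ => hasDir_desc ((h i).pd _) (smooth_pd (hs i) _) k t
  · exact fun j t _ x => hasDerivAt_const _ _
  · exact fun i => contOn_desc (h i) (hs i) T
  · exact fun i => contOn_desc ((h i).pd _) (smooth_pd (hs i) _) T
  · exact fun i j => contOn_desc ((h i).pd _) (smooth_pd (hs i) _) T
  · exact fun i j k => contOn_desc (((h i).pd _).pd _) (smooth_pd (smooth_pd (hs i) _) _) T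
  · exact continuousOn_const
  · exact fun j => continuousOn_const
  · intro i t _ x
    simp only [desc, forceR]
    ring
  · exact fun t _ x => hdiv _
  · intro x
    funext i
    exact h0 i _ rfl
  · simp

/-- Uniqueness of trajectories in a smooth field. -/
theorem traj_unique {U : Fin 3 → R4 → ℝ} (h : ∀ i, Per (U i)) (hs : ∀ i, ContDiff ℝ ∞ (U i))
    {a : T3} {X Y : ℝ → Fin 3 → ℝ} (hX : IsTraj (fun t x i => desc (U i) t x) a X)
    (hY : IsTraj (fun t x i => desc (U i) t x) a Y) {t : ℝ} (ht : 0 ≤ t) :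
    proj (X t) = proj (Y t) := by
  set Z : ℝ → Fin 3 → ℝ := fun s => Y s + (X 0 - Y 0) with hZ
  have hp : ∀ s, proj (Z s) = proj (Y s) := by
    intro s
    have : proj (X 0 - Y 0) = 0 := by
      have e := proj_add (X 0 - Y 0) (Y 0)
      rw [sub_add_cancel, hX.1, hY.1] at e
      simpa using e
    rw [hZ]
    simp only [proj_add, this, add_zero]
  let V : ℝ × (Fin 3 → ℝ) → Fin 3 → ℝ := fun z i => U i (Fin.cons z.1 z.2)
  have hV : ContDiff ℝ ∞ V := contDiff_pi.2 fun i => (hs i).comp contDiff_cons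
  have hX' : ∀ s ∈ Ici (0 : ℝ), HasDerivWithinAt X (V (s, X s)) (Ici 0) s := by
    intro s hs
    have := hX.2 s hs
    simp only [desc_proj (h _)] at this
    exact this
  have hZ' : ∀ s ∈ Ici (0 : ℝ), HasDerivWithinAt Z (V (s, Z s)) (Ici 0) s := by
    intro s hs
    have := (hY.2 s hs).add_const (X 0 - Y 0)
    rw [← hp] at this
    simp only [desc_proj (h _)] at this
    exact this
  have cX : ContinuousOn X (Icc 0 t) :=
    fun s hs => (hX' s hs.1).continuousWithinAt.mono Icc_subset_Ici_self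
  have cZ : ContinuousOn Z (Icc 0 t) :=
    fun s hs => (hZ' s hs.1).continuousWithinAt.mono Icc_subset_Ici_self
  have hK : IsCompact (X '' Icc 0 t ∪ Z '' Icc 0 t) :=
    (isCompact_Icc.image_of_continuousOn cX).union (isCompact_Icc.image_of_continuousOn cZ)
  obtain ⟨K, hL⟩ := ((hV.of_le (m := 1) (by simp)).locallyLipschitz.locallyLipschitzOn
    (s := Icc 0 t ×ˢ (X '' Icc 0 t ∪ Z '' Icc 0 t))).exists_lipschitzOnWith_of_compact
      (isCompact_Icc.prod hK)
  have := ODE_solution_unique_of_mem_Icc_right (v := fun s y => V (s, y))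
    (s := fun _ => X '' Icc 0 t ∪ Z '' Icc 0 t) (K := K) (f := X) (g := Z) (a := 0) (b := t)
    (fun s hs => LipschitzOnWith.of_dist_le_mul fun y hy z hz => by
      have := hL.dist_le_mul (s, y) ⟨Ico_subset_Icc_self hs, hy⟩ (s, z)
        ⟨Ico_subset_Icc_self hs, hz⟩
      simpa using this)
    cX (fun s hs => (hX' s hs.1).mono (Ici_subset_Ici.2 hs.1))
    (fun s hs => Or.inl ⟨s, Ico_subset_Icc_self hs, rfl⟩)
    cZ (fun s hs => (hZ' s hs.1).mono (Ici_subset_Ici.2 hs.1))
    (fun s hs => Or.inr ⟨s, Ico_subset_Icc_self hs, rfl⟩) (by simp [hZ])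
  rw [this ⟨ht, le_rfl⟩, hp]

theorem smn {α β γ : Type} [Primcodable α] [Primcodable β] [Primcodable γ] {G : α × β → γ}
    (hG : Computable G) : ∃ compile : α → Nat.Partrec.Code, Computable compile ∧
      ∀ a b, (compile a).eval (Encodable.encode b) = Part.some (Encodable.encode (G (a, b))) := by
  obtain ⟨c, hc⟩ := Nat.Partrec.Code.exists_code.1 hG
  refine ⟨fun a => Nat.Partrec.Code.curry c (Encodable.encode a),
    (Nat.Partrec.Code.primrec₂_curry.comp (Primrec.const c) Primrec.encode).to_comp, ?_⟩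
  intro a b
  rw [Nat.Partrec.Code.eval_curry, hc]
  have e : Nat.pair (Encodable.encode a) (Encodable.encode b) = Encodable.encode (a, b) := rfl
  simp only [e, Encodable.encodek]
  simp

theorem inst_in : (Primcodable.toEncodable :
    Encodable (List (Fin 4) × Fin 3 × Tri × Tri × Tri × Tri × Tri)) =
      Encodable.Prod.encodable := rfl

theorem inst_out : (Primcodable.toEncodable : Encodable Tri) = Encodable.Prod.encodable := rfl

/-- From effectivity to a compiler. -/
theorem exists_compiler {α : Type} [Primcodable α] {F : α → Fin 3 → R4 → ℝ}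
    (h : ∀ i, Eff fun a => F a i) (hp : ∀ a i, Per (F a i)) :
    ∃ compile : α → Nat.Partrec.Code, Computable compile ∧
      ∀ a, Computes (compile a) (fun t x i => desc (F a i) t x) := by
  have hA : Approx (fun q : α × List (Fin 4) × Fin 3 × Pt =>
      mixed q.2.1 (F q.1 q.2.2.1) (ptR q.2.2.2)) := by
    have k : ∀ i, Approx (fun q : α × List (Fin 4) × Fin 3 × Pt =>
        mixed q.2.1 (F q.1 i) (ptR q.2.2.2)) := fun i =>
      (h i).2.comp (k := fun q : α × List (Fin 4) × Fin 3 × Pt => (q.1, q.2.1, q.2.2.2))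
        (by fun_prop)
    have c0 : Computable (fun q : α × List (Fin 4) × Fin 3 × Pt => decide (q.2.2.1 = 0)) :=
      c_eq (by fun_prop) (by fun_prop)
    have c1 : Computable (fun q : α × List (Fin 4) × Fin 3 × Pt => decide (q.2.2.1 = 1)) :=
      c_eq (by fun_prop) (by fun_prop)
    refine ((k 0).cond ((k 1).cond (k 2) c1) c0).congr ?_
    rintro ⟨a, ds, i, pt⟩
    fin_cases i <;> simp
  obtain ⟨g, hg, H⟩ := hA
  have hG : Computable (fun q : α × (List (Fin 4) × Fin 3 × Tri × Tri × Tri × Tri × Tri) =>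
      g ((q.1, q.2.1, q.2.2.1, q.2.2.2.1, q.2.2.2.2.1, q.2.2.2.2.2.1, q.2.2.2.2.2.2.1),
        q.2.2.2.2.2.2.2.2.2)) := by fun_prop
  obtain ⟨c, hc, H2⟩ := smn hG
  refine ⟨c, hc, ?_⟩
  intro a ds i t x y z ε hε
  refine ⟨g ((a, ds, i, t, x, y, z), ε.2.2), ?_, ?_⟩
  · have := H2 a (ds, i, t, x, y, z, ε)
    rw [inst_in, inst_out] at this
    exact this
  · rw [lift_desc (hp a i)]
    exact (H (a, ds, i, t, x, y, z) ε.2.2).trans (inv_le_rat ε hε)

end Vale.Agent.P113
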