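import Vale.Agent.P113.Elem

/-!
Families of smooth functions on `ℝ⁴` all of whose mixed derivatives are uniformly computable at
rational points.
-/

open Set
open scoped ContDiff

namespace Vale.Agent.P113

section
variable {α β σ : Type} [Primcodable α] [Primcodable β] [Primcodable σ]

theorem c_foldl [Inhabited β] {l : α → List β} {g : α → σ} {h : α × σ × β → σ}
    (hl : Computable l) (hg : Computable g) (hh : Computable h) :
    Computable (fun a => (l a).foldl (fun s b => h (a, s, b)) (g a)) := by
  have := Computable.nat_rec (f := fun a => (l a).length) (g := g)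
    (h := fun a p => h (a, p.2, (l a).getD p.1 default)) (by fun_prop) hg
    (by unfold Computable₂; fun_prop)
  refine this.of_eq fun a => ?_
  have key : ∀ k, k ≤ (l a).length →
      Nat.rec (motive := fun _ => σ) (g a) (fun j s => h (a, s, (l a).getD j default)) k =
      ((l a).take k).foldl (fun s b => h (a, s, b)) (g a) := by
    intro k
    induction k with
    | zero => intro _; rfl
    | succ k ih =>
      intro hk
      rw [List.take_succ_eq_append_getElem (by omega), List.foldl_append, ← ih (by omega)]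
      simp [List.getD_eq_getElem?_getD, List.getElem?_eq_getElem (show k < (l a).length by omega)]
  simpa using key _ le_rfl

theorem c_flatMap [Inhabited β] {l : α → List β} {h : α × β → List σ}
    (hl : Computable l) (hh : Computable h) :
    Computable (fun a => (l a).flatMap (fun b => h (a, b))) := by
  have := c_foldl (l := l) (g := fun _ => ([] : List σ))
    (h := fun q : α × List σ × β => q.2.1 ++ h (q.1, q.2.2)) hl (by fun_prop) (by fun_prop)
  refine this.of_eq fun a => ?_
  have key : ∀ (L : List β) (s : List σ), L.foldl (fun s b => s ++ h (a, b)) s =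
      s ++ L.flatMap (fun b => h (a, b)) := by
    intro L
    induction L with
    | nil => simp
    | cons b L ih => intro s; simp [ih]
  simpa using key (l a) []

theorem c_foldr [Inhabited β] {l : α → List β} {g : α → σ} {h : α × σ × β → σ}
    (hl : Computable l) (hg : Computable g) (hh : Computable h) :
    Computable (fun a => (l a).foldr (fun b s => h (a, s, b)) (g a)) := by
  have := c_foldl (l := fun a => (l a).reverse) (Computable.list_reverse.comp hl) hg hh
  refine this.of_eq fun a => ?_
  rw [List.foldl_reverse]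

end

abbrev R4 : Type := Fin 4 → ℝ

theorem hasDerivAt_pd {F : R4 → ℝ} (hF : Differentiable ℝ F) (i : Fin 4) (p : R4) (s : ℝ) :
    HasDerivAt (fun s : ℝ => F (Function.update p i s))
      (fderiv ℝ F (Function.update p i s) (Pi.single i 1)) s :=
  (hF _).hasFDerivAt.comp_hasDerivAt s (hasDerivAt_update p i s)

theorem pd_eq_fderiv {F : R4 → ℝ} (hF : Differentiable ℝ F) (i : Fin 4) :
    pd i F = fun p => fderiv ℝ F p (Pi.single i 1) := by
  funext p
  unfold pd
  rw [(hasDerivAt_pd hF i p (p i)).deriv, Function.update_eq_self]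

theorem hasDerivAt_pd' {F : R4 → ℝ} (hF : Differentiable ℝ F) (i : Fin 4) (p : R4) (s : ℝ) :
    HasDerivAt (fun s : ℝ => F (Function.update p i s)) (pd i F (Function.update p i s)) s := by
  rw [pd_eq_fderiv hF]
  exact hasDerivAt_pd hF i p s

theorem smooth_diff {F : R4 → ℝ} (hF : ContDiff ℝ ∞ F) : Differentiable ℝ F :=
  hF.differentiable (by simp)

theorem smooth_pd {F : R4 → ℝ} (hF : ContDiff ℝ ∞ F) (i : Fin 4) : ContDiff ℝ ∞ (pd i F) := by
  rw [pd_eq_fderiv (smooth_diff hF)]
  exact (hF.fderiv_right (m := ∞) (by simp)).clm_apply contDiff_const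

theorem smooth_mixed {F : R4 → ℝ} (hF : ContDiff ℝ ∞ F) (ds : List (Fin 4)) :
    ContDiff ℝ ∞ (mixed ds F) := by
  induction ds with
  | nil => exact hF
  | cons i ds ih => exact smooth_pd ih i

theorem pd_of_hasDerivAt {F : R4 → ℝ} {i : Fin 4} {p : R4} {d : ℝ}
    (h : HasDerivAt (fun s : ℝ => F (Function.update p i s)) d (p i)) : pd i F p = d := h.deriv

theorem hasDerivAt_pd0 {F : R4 → ℝ} (hF : Differentiable ℝ F) (i : Fin 4) (p : R4) :
    HasDerivAt (fun s : ℝ => F (Function.update p i s)) (pd i F p) (p i) := by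
  simpa using hasDerivAt_pd' hF i p (p i)

theorem pd_add {F G : R4 → ℝ} (hF : Differentiable ℝ F) (hG : Differentiable ℝ G) (i : Fin 4)
    (p : R4) : pd i (fun x => F x + G x) p = pd i F p + pd i G p :=
  pd_of_hasDerivAt ((hasDerivAt_pd0 hF i p).fun_add (hasDerivAt_pd0 hG i p))

theorem pd_mul {F G : R4 → ℝ} (hF : Differentiable ℝ F) (hG : Differentiable ℝ G) (i : Fin 4)
    (p : R4) : pd i (fun x => F x * G x) p = pd i F p * G p + F p * pd i G p := by
  have := (hasDerivAt_pd0 hF i p).fun_mul (hasDerivAt_pd0 hG i p)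
  simp only [Function.update_eq_self] at this
  exact pd_of_hasDerivAt this

theorem pd_const (c : ℝ) (i : Fin 4) (p : R4) : pd i (fun _ => c) p = 0 := by
  simp [pd]

theorem smooth_listsum {ι : Type} {Φ : ι → R4 → ℝ} (h : ∀ j, ContDiff ℝ ∞ (Φ j)) (L : List ι) :
    ContDiff ℝ ∞ (fun p => (L.map fun j => Φ j p).sum) := by
  induction L with
  | nil => simpa using contDiff_const
  | cons j L ih => simpa using (h j).add ih

theorem pd_listsum {ι : Type} {Φ : ι → R4 → ℝ} (h : ∀ j, ContDiff ℝ ∞ (Φ j)) (L : List ι)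
    (i : Fin 4) (p : R4) :
    pd i (fun p => (L.map fun j => Φ j p).sum) p = (L.map fun j => pd i (Φ j) p).sum := by
  induction L with
  | nil => simpa using pd_const 0 i p
  | cons j L ih =>
    simp only [List.map_cons, List.sum_cons]
    rw [pd_add (smooth_diff (h j)) (smooth_diff (smooth_listsum h L)), ih]

theorem mixed_add {F G : R4 → ℝ} (hF : ContDiff ℝ ∞ F) (hG : ContDiff ℝ ∞ G) (ds : List (Fin 4)) :
    mixed ds (fun x => F x + G x) = fun x => mixed ds F x + mixed ds G x := by
  induction ds with
  | nil => rfl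
  | cons i ds ih =>
    funext p
    change pd i (mixed ds _) p = _
    rw [ih, pd_add (smooth_diff (smooth_mixed hF ds)) (smooth_diff (smooth_mixed hG ds))]
    rfl

abbrev Pt : Type := Tri × Tri × Tri × Tri

noncomputable def ptR (p : Pt) : R4 := ![rat p.1, rat p.2.1, rat p.2.2.1, rat p.2.2.2]

variable {α β : Type} [Primcodable α] [Primcodable β]

def Eff (F : α → R4 → ℝ) : Prop :=
  (∀ a, ContDiff ℝ ∞ (F a)) ∧
    Approx (fun q : α × List (Fin 4) × Pt => mixed q.2.1 (F q.1) (ptR q.2.2))

theorem Eff.comp {F : β → R4 → ℝ} (h : Eff F) {k : α → β} (hk : Computable k) :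
    Eff (fun a => F (k a)) :=
  ⟨fun a => h.1 _, h.2.comp (k := fun q : α × List (Fin 4) × Pt => (k q.1, q.2)) (by fun_prop)⟩

theorem Eff.congr {F G : α → R4 → ℝ} (h : Eff F) (e : ∀ a p, F a p = G a p) : Eff G := by
  have : F = G := funext fun a => funext (e a)
  rwa [← this]

theorem Eff.of_family [Inhabited α] {Φ : α → R4 → ℝ} (hs : ∀ j, ContDiff ℝ ∞ (Φ j))
    {rule : α × Fin 4 → List α} (hr : Computable rule)
    (hd : ∀ j i p, pd i (Φ j) p = ((rule (j, i)).map fun j' => Φ j' p).sum)
    (hv : Approx (fun q : α × Pt => Φ q.1 (ptR q.2))) : Eff Φ := by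
  refine ⟨hs, ?_⟩
  let ex : α × List (Fin 4) × Pt → List α := fun q =>
    q.2.1.foldr (fun i L => L.flatMap fun j => rule (j, i)) [q.1]
  have hex : Computable ex := by
    refine c_foldr (l := fun q : α × List (Fin 4) × Pt => q.2.1) (g := fun q => [q.1])
      (h := fun r : (α × List (Fin 4) × Pt) × List α × Fin 4 =>
        r.2.1.flatMap fun j => rule (j, r.2.2)) (by fun_prop) (by fun_prop) ?_
    exact c_flatMap (l := fun r : (α × List (Fin 4) × Pt) × List α × Fin 4 => r.2.1)
      (h := fun s => rule (s.2, s.1.2.2)) (by fun_prop) (by fun_prop)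
  have := (hv.comp (k := fun r : (α × List (Fin 4) × Pt) × α => (r.2, r.1.2.2))
    (by fun_prop)).sum_list hex
  refine this.congr fun q => ?_
  obtain ⟨j, ds, pt⟩ := q
  simp only [ex]
  generalize ptR pt = p
  induction ds generalizing p with
  | nil => simp [mixed]
  | cons i ds ih =>
    change _ = pd i (mixed ds (Φ j)) p
    rw [← funext ih, pd_listsum hs, List.foldr_cons]
    generalize List.foldr (fun i L => L.flatMap fun j => rule (j, i)) [j] ds = L
    induction L with
    | nil => simp
    | cons b L ih2 => simp [ih2, hd]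

theorem Eff.add {F G : α → R4 → ℝ} (hF : Eff F) (hG : Eff G) : Eff (fun a p => F a p + G a p) :=
  ⟨fun a => (hF.1 a).add (hG.1 a), (hF.2.add hG.2).congr fun q => by
    rw [mixed_add (hF.1 _) (hG.1 _)]⟩

theorem Eff.pd {F : α → R4 → ℝ} (hF : Eff F) (i : Fin 4) : Eff (fun a => pd i (F a)) :=
  ⟨fun a => smooth_pd (hF.1 a) i,
    (hF.2.comp (k := fun q : α × List (Fin 4) × Pt => (q.1, q.2.1 ++ [i], q.2.2))
      (by fun_prop)).congr fun q => by simp [mixed]⟩

theorem Eff.mul [Inhabited α] {F G : α → R4 → ℝ} (hF : Eff F) (hG : Eff G) :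
    Eff (fun a p => F a p * G a p) := by
  have := Eff.of_family (α := α × List (Fin 4) × List (Fin 4))
    (Φ := fun j p => mixed j.2.1 (F j.1) p * mixed j.2.2 (G j.1) p)
    (fun j => (smooth_mixed (hF.1 _) _).mul (smooth_mixed (hG.1 _) _))
    (rule := fun r => [(r.1.1, r.2 :: r.1.2.1, r.1.2.2), (r.1.1, r.1.2.1, r.2 :: r.1.2.2)])
    (by fun_prop) (fun j i p => by
      rw [pd_mul (smooth_diff (smooth_mixed (hF.1 _) _)) (smooth_diff (smooth_mixed (hG.1 _) _))]
      simp [mixed])
    ((hF.2.comp (k := fun q : (α × List (Fin 4) × List (Fin 4)) × Pt => (q.1.1, q.1.2.1, q.2))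
      (by fun_prop)).mul
      (hG.2.comp (k := fun q : (α × List (Fin 4) × List (Fin 4)) × Pt => (q.1.1, q.1.2.2, q.2))
      (by fun_prop)))
  exact this.comp (k := fun a => (a, [], [])) (by fun_prop)

theorem Eff.const [Inhabited α] {c : α → ℝ} (hc : Approx c) : Eff (fun a (_ : R4) => c a) :=
  Eff.of_family (fun _ => contDiff_const) (rule := fun _ => []) (by fun_prop)
    (fun j i p => by simp [pd_const]) (hc.comp (k := fun q : α × Pt => q.1) (by fun_prop))

theorem Eff.neg [Inhabited α] {F : α → R4 → ℝ} (hF : Eff F) : Eff (fun a p => -F a p) :=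
  ((Eff.const (Approx.nat (g := fun _ : α => 1) (by fun_prop)).neg).mul hF).congr
    fun a p => by simp

theorem Eff.sub [Inhabited α] {F G : α → R4 → ℝ} (hF : Eff F) (hG : Eff G) :
    Eff (fun a p => F a p - G a p) := (hF.add hG.neg).congr fun a p => by ring

def coord (i : Fin 4) (p : Pt) : Tri := ![p.1, p.2.1, p.2.2.1, p.2.2.2] i

theorem c_coord (i : Fin 4) : Computable (coord i) := by
  fin_cases i
  · exact (by fun_prop : Computable fun p : Pt => p.1)
  · exact (by fun_prop : Computable fun p : Pt => p.2.1)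
  · exact (by fun_prop : Computable fun p : Pt => p.2.2.1)
  · exact (by fun_prop : Computable fun p : Pt => p.2.2.2)

theorem rat_coord (i : Fin 4) (p : Pt) : rat (coord i p) = ptR p i := by
  fin_cases i <;> rfl

/-- A family of functions of one coordinate closed under differentiation. -/
theorem Eff.of_family1 [Inhabited α] (i : Fin 4) {φ : α → ℝ → ℝ} (hs : ∀ j, ContDiff ℝ ∞ (φ j))
    {rule : α → List α} (hr : Computable rule)
    (hd : ∀ j x, HasDerivAt (φ j) (((rule j).map fun j' => φ j' x).sum) x)
    (hv : Approx (fun q : α × Tri => φ q.1 (rat q.2))) : Eff (fun j p => φ j (p i)) := by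
  have hc := c_coord i
  refine Eff.of_family (fun j => (hs j).comp (contDiff_apply ℝ ℝ i))
    (rule := fun r => bif decide (r.2 = i) then rule r.1 else []) (by fun_prop) ?_ ?_
  · intro j k p
    by_cases h : k = i
    · subst h
      simp only [decide_true, Bool.cond_true]
      refine pd_of_hasDerivAt ?_
      simpa using hd j (p k)
    · simp only [h, decide_false, Bool.cond_false, List.map_nil, List.sum_nil]
      refine pd_of_hasDerivAt ?_
      simp only [Function.update_of_ne (Ne.symm h)]
      exact hasDerivAt_const _ _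
  · exact (hv.comp (k := fun q : α × Pt => (q.1, coord i q.2)) (by fun_prop)).congr
      fun q => by rw [rat_coord]

noncomputable def trig (j : Tri × ℕ × Bool) (x : ℝ) : ℝ :=
  rat j.1 * (Real.pi ^ j.2.1 *
    (bif j.2.2 then Real.cos (2 * Real.pi * x) else Real.sin (2 * Real.pi * x)))

theorem eff_trig (i : Fin 4) : Eff (fun j p => trig j (p i)) := by
  refine Eff.of_family1 i ?_
    (rule := fun j => [(tmul j.1 (bif j.2.2 then (0, 2, 0) else (2, 0, 0)), j.2.1 + 1, !j.2.2)])
    (by fun_prop) ?_ ?_
  · rintro ⟨c, m, b⟩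
    unfold trig
    cases b <;> simp only [Bool.cond_true, Bool.cond_false] <;> fun_prop
  · rintro ⟨c, m, b⟩ x
    unfold trig
    have h0 : HasDerivAt (fun x : ℝ => 2 * Real.pi * x) (2 * Real.pi) x := by
      simpa using (hasDerivAt_id x).const_mul (2 * Real.pi)
    cases b
    · simp only [Bool.cond_true, Bool.cond_false, Bool.not_false, List.map_cons, List.map_nil,
        List.sum_cons, List.sum_nil, rat_tmul]
      refine ((h0.sin.const_mul (Real.pi ^ m)).const_mul (rat c)).congr_deriv ?_
      simp [rat]; ring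
    · simp only [Bool.cond_true, Bool.cond_false, Bool.not_true, List.map_cons, List.map_nil,
        List.sum_cons, List.sum_nil, rat_tmul]
      refine ((h0.cos.const_mul (Real.pi ^ m)).const_mul (rat c)).congr_deriv ?_
      simp [rat]; ring
  · have ha : Approx (fun q : (Tri × ℕ × Bool) × Tri => 2 * Real.pi * rat q.2) :=
      (((Approx.nat (g := fun _ => 2) (by fun_prop)).mul Approx.pi).mul
        (Approx.of_rat (g := fun q : (Tri × ℕ × Bool) × Tri => q.2) (by fun_prop))).congr
        fun q => by simp
    exact ((Approx.pi.pow (k := fun q : (Tri × ℕ × Bool) × Tri => q.1.2.1) (by fun_prop)).mul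
      (ha.cos.cond ha.sin (c := fun q => q.1.2.2) (by fun_prop))).rat_mul
        (g := fun q => q.1.1) (by fun_prop)

theorem eff_cos (i : Fin 4) : Eff (fun (_ : α) (p : R4) => Real.cos (2 * Real.pi * p i)) :=
  ((eff_trig i).comp (k := fun _ : α => ((1, 0, 0), 0, true)) (by fun_prop)).congr
    fun a p => by simp [trig, rat]

theorem eff_sin (i : Fin 4) : Eff (fun (_ : α) (p : R4) => Real.sin (2 * Real.pi * p i)) :=
  ((eff_trig i).comp (k := fun _ : α => ((1, 0, 0), 0, false)) (by fun_prop)).congr
    fun a p => by simp [trig, rat]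

noncomputable def flat (j : Tri × ℕ) (x : ℝ) : ℝ :=
  rat j.1 * (((1 - x)⁻¹) ^ j.2 * expNegInvGlue (1 - x))

theorem approx_glue : Approx (fun q : Tri × ℕ => (rat q.1)⁻¹ ^ q.2 * expNegInvGlue (rat q.1)) := by
  have h1 : Approx (fun q : Tri × ℕ => rat (tinv q.1)) := Approx.of_rat (by fun_prop)
  have hc : Computable (fun q : Tri × ℕ => decide (q.1.2.1 < q.1.1)) :=
    c_lt (by fun_prop) (by fun_prop)
  have h2 := ((h1.pow (k := fun q => q.2) (by fun_prop)).mul h1.neg.exp).cond
    (Approx.nat (g := fun _ => 0) (by fun_prop)) hc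
  refine h2.congr fun q => ?_
  by_cases h : q.1.2.1 < q.1.1
  · have h' := (rat_pos_iff _).2 h
    simp [h, rat_tinv _ h', expNegInvGlue, not_le.2 h']
  · have h' : rat q.1 ≤ 0 := not_lt.1 fun h' => h ((rat_pos_iff _).1 h')
    simp [h, expNegInvGlue.zero_of_nonpos h']

theorem eff_flat (i : Fin 4) : Eff (fun j p => flat j (p i)) := by
  refine Eff.of_family1 i ?_
    (rule := fun j => [(tneg j.1, j.2 + 2), (tmul j.1 (j.2, 0, 0), j.2 + 1)])
    (by fun_prop) ?_ ?_
  · rintro ⟨c, m⟩
    unfold flat
    have h := expNegInvGlue.contDiff_polynomial_eval_inv_mul (n := ⊤) (Polynomial.X ^ m)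
    simp only [Polynomial.eval_pow, Polynomial.eval_X] at h
    exact contDiff_const.mul (h.comp (contDiff_const.sub contDiff_id))
  · rintro ⟨c, m⟩ x
    unfold flat
    have h := expNegInvGlue.hasDerivAt_polynomial_eval_inv_mul (Polynomial.X ^ m) (1 - x)
    have h0 : HasDerivAt (fun x : ℝ => 1 - x) (-1) x := by
      simpa using (hasDerivAt_id x).const_sub 1
    have h2 := (h.comp x h0).const_mul (rat c)
    simp only [Polynomial.eval_pow, Polynomial.eval_X, Function.comp_def] at h2
    refine h2.congr_deriv ?_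
    simp only [List.map_cons, List.map_nil, List.sum_cons, List.sum_nil, rat_tneg, rat_tmul,
      Polynomial.derivative_X_pow, Polynomial.eval_mul, Polynomial.eval_sub, Polynomial.eval_pow,
      Polynomial.eval_X, Polynomial.eval_C]
    have : rat (m, 0, 0) = m := by simp [rat]
    rw [this]
    rcases m with _ | m
    · simp
    · simp only [Nat.add_sub_cancel]
      ring
  · have := (approx_glue.comp (k := fun q : (Tri × ℕ) × Tri => (tadd (1, 0, 0) (tneg q.2), q.1.2))
      (by fun_prop)).rat_mul (g := fun q => q.1.1) (by fun_prop)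
    refine this.congr fun q => ?_
    have e : rat (tadd (1, 0, 0) (tneg q.2)) = 1 - rat q.2 := by
      rw [rat_tadd, rat_tneg]; simp [rat]; ring
    simp only [e, flat]

theorem eff_glue (i : Fin 4) : Eff (fun (_ : α) (p : R4) => expNegInvGlue (1 - p i)) :=
  ((eff_flat i).comp (k := fun _ : α => ((1, 0, 0), 0)) (by fun_prop)).congr
    fun a p => by simp [flat, rat]

theorem approx_glue_one : Approx (fun _ : α => expNegInvGlue 1) :=
  (approx_glue.comp (k := fun _ : α => ((1, 0, 0), 0)) (by fun_prop)).congr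
    fun a => by simp [rat]

end Vale.Agent.P113
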