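import Vale.Agent.P113.Approx

/-!
Computability of `π`, `exp`, `cos`, `sin` on computable families of reals.
-/

open Set

namespace Vale.Agent.P113

variable {α : Type} [Primcodable α]

theorem cexp_tail (z : ℂ) (B k : ℕ) (hz : ‖z‖ ≤ B) :
    ‖Complex.exp z - ∑ m ∈ Finset.range (4 * B + k + 2), z ^ m / m.factorial‖ ≤
      1 / ((k : ℝ) + 1) := by
  have hB : (0 : ℝ) ≤ B := Nat.cast_nonneg B
  have hk : (0 : ℝ) ≤ k := Nat.cast_nonneg k
  refine (Complex.exp_bound' ?_).trans ?_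
  · rw [div_le_iff₀ (by positivity)]
    push_cast
    linarith
  · set n := 4 * B + k + 2 with hn
    have h1 : ‖z‖ ^ n ≤ (B : ℝ) ^ n := pow_le_pow_left₀ (norm_nonneg _) hz _
    have h2 : (2 * B : ℝ) ^ n / n.factorial ≤ Real.exp (2 * B) :=
      Real.pow_div_factorial_le_exp _ (by positivity) n
    have h3 : Real.exp (2 * B) ≤ 2 ^ (4 * B) := by
      have : Real.exp (2 * B) = Real.exp 1 ^ (2 * B) := by
        rw [← Real.exp_nat_mul]; push_cast; ring_nf
      rw [this, show 4 * B = 2 * (2 * B) by ring, pow_mul (2 : ℝ) 2]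
      refine pow_le_pow_left₀ (Real.exp_pos _).le ?_ _
      linarith [Real.exp_one_lt_d9]
    have h4 : (k : ℝ) + 1 ≤ 2 ^ (k + 1) := by
      have := (Nat.lt_two_pow_self (n := k + 1)).le
      exact_mod_cast this
    have hf : (0 : ℝ) < n.factorial := by exact_mod_cast n.factorial_pos
    have h5 : (B : ℝ) ^ n / n.factorial * 2 ^ n ≤ 2 ^ (4 * B) := by
      refine le_trans (le_of_eq ?_) (h2.trans h3)
      rw [mul_pow]; ring
    have h6 : (2 : ℝ) ^ n = 2 ^ (4 * B) * (2 ^ (k + 1) * 2) := by rw [hn]; ring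
    rw [h6] at h5
    have h7 : (B : ℝ) ^ n / n.factorial * (2 ^ (k + 1) * 2) ≤ 1 := by
      have hp : (0 : ℝ) < 2 ^ (4 * B) := by positivity
      refine le_of_mul_le_mul_left ?_ hp
      linarith
    have h8 : ‖z‖ ^ n / n.factorial ≤ (B : ℝ) ^ n / n.factorial := by gcongr
    have h9 : 0 ≤ ‖z‖ ^ n / n.factorial := by positivity
    rw [le_div_iff₀ (by positivity)]
    calc ‖z‖ ^ n / n.factorial * 2 * ((k : ℝ) + 1)
        ≤ (B : ℝ) ^ n / n.factorial * 2 * 2 ^ (k + 1) := by gcongr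
      _ ≤ 1 := by linarith

theorem Approx.cexp {F : α → ℝ} (hF : Approx F) (ω : ℂ) (hω : ‖ω‖ ≤ 1) (φ : ℂ →L[ℝ] ℝ)
    (hφ : ∀ z, |φ z| ≤ ‖z‖) (h : Approx (fun m : ℕ => φ (ω ^ m))) :
    Approx (fun a => φ (Complex.exp (F a * ω))) := by
  obtain ⟨B, hB, HB⟩ := hF.bound
  have h1 : Approx (fun q : (α × ℕ) × ℕ =>
      rat (1, 0, q.2.factorial - 1) * (F q.1.1 ^ q.2 * φ (ω ^ q.2))) :=
    (((hF.comp (k := fun q : (α × ℕ) × ℕ => q.1.1) (by fun_prop)).pow (by fun_prop)).mul
      (h.comp (k := fun q : (α × ℕ) × ℕ => q.2) (by fun_prop))).rat_mul (by fun_prop)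
  refine Approx.lim (h1.sum_range (N := fun p : α × ℕ => 4 * B p.1 + p.2 + 2) (by fun_prop))
    fun a n => ?_
  have h2 := cexp_tail (F a * ω) (B a) n (by
    rw [norm_mul, Complex.norm_real, Real.norm_eq_abs]
    nlinarith [HB a, abs_nonneg (F a), norm_nonneg ω])
  refine le_trans ?_ h2
  refine le_trans (le_of_eq ?_) (hφ _)
  rw [map_sub, map_sum, abs_sub_comm]
  congr 2
  refine Finset.sum_congr rfl fun m _ => ?_
  have e : ((F a : ℂ) * ω) ^ m / m.factorial = ((F a ^ m / m.factorial : ℝ)) • ω ^ m := by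
    rw [Complex.real_smul]; push_cast; ring
  have e2 : (((m.factorial - 1 : ℕ) : ℝ) + 1) = m.factorial := by
    rw [Nat.cast_sub m.factorial_pos]; push_cast; ring
  rw [e, map_smul, smul_eq_mul]
  simp only [rat, e2]
  push_cast
  ring

theorem Approx.exp {F : α → ℝ} (hF : Approx F) : Approx (fun a => Real.exp (F a)) := by
  have := hF.cexp 1 (by simp) Complex.reCLM (fun z => Complex.abs_re_le_norm z)
    ((Approx.nat (g := fun _ : ℕ => 1) (by fun_prop)).congr fun m => by simp)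
  refine this.congr fun a => ?_
  simp [Complex.exp_ofReal_re]

def ipow (m : ℕ) : Tri × Tri := (fun p : Tri × Tri => (tneg p.2, p.1))^[m] ((1, 0, 0), (0, 0, 0))

theorem c_ipow : Computable ipow :=
  c_iterate (n := fun m : ℕ => m) (g := fun _ => (((1, 0, 0), (0, 0, 0)) : Tri × Tri))
    (h := fun q : ℕ × (Tri × Tri) => (tneg q.2.2, q.2.1)) (by fun_prop) (by fun_prop) (by fun_prop)

theorem ipow_spec (m : ℕ) :
    rat (ipow m).1 = (Complex.I ^ m).re ∧ rat (ipow m).2 = (Complex.I ^ m).im := by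
  unfold ipow
  induction m with
  | zero => simp [rat]
  | succ m ih =>
    rw [Function.iterate_succ_apply', pow_succ]
    simp [rat_tneg, ih.1, ih.2]

theorem Approx.cos {F : α → ℝ} (hF : Approx F) : Approx (fun a => Real.cos (F a)) := by
  have hi := c_ipow
  have := hF.cexp Complex.I (by simp) Complex.reCLM (fun z => Complex.abs_re_le_norm z)
    ((Approx.of_rat (g := fun m => (ipow m).1) (by fun_prop)).congr fun m => (ipow_spec m).1)
  refine this.congr fun a => ?_
  simp [Complex.exp_ofReal_mul_I_re]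

theorem Approx.sin {F : α → ℝ} (hF : Approx F) : Approx (fun a => Real.sin (F a)) := by
  have hi := c_ipow
  have := hF.cexp Complex.I (by simp) Complex.imCLM (fun z => Complex.abs_im_le_norm z)
    ((Approx.of_rat (g := fun m => (ipow m).2) (by fun_prop)).congr fun m => (ipow_spec m).2)
  refine this.congr fun a => ?_
  simp [Complex.exp_ofReal_mul_I_im]

def wallis (k : ℕ) : Tri :=
  Nat.rec (motive := fun _ => Tri) (2, 0, 0)
    (fun j s => tmul s (tmul (2 * j + 2, 0, 2 * j) (2 * j + 2, 0, 2 * j + 2))) k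

theorem c_wallis : Computable wallis :=
  Computable.nat_rec (f := fun k : ℕ => k) (g := fun _ => ((2, 0, 0) : Tri))
    (h := fun _ r => tmul r.2 (tmul (2 * r.1 + 2, 0, 2 * r.1) (2 * r.1 + 2, 0, 2 * r.1 + 2)))
    (by fun_prop) (by fun_prop) (by unfold Computable₂; fun_prop)

theorem wallis_spec (k : ℕ) : rat (wallis k) = 2 * Real.Wallis.W k := by
  induction k with
  | zero => simp [wallis, rat, Real.Wallis.W]
  | succ k ih =>
    have e : wallis (k + 1) =
      tmul (wallis k) (tmul (2 * k + 2, 0, 2 * k) (2 * k + 2, 0, 2 * k + 2)) := rfl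
    rw [e, rat_tmul, rat_tmul, ih, Real.Wallis.W_succ]
    simp only [rat]
    push_cast
    ring

theorem Approx.pi : Approx (fun _ : α => Real.pi) := by
  have hw := c_wallis
  refine ⟨fun p => wallis (2 * p.2 + 1), by fun_prop, fun a n => ?_⟩
  simp only [wallis_spec]
  have h1 := Real.Wallis.W_le (2 * n + 1)
  have h2 := Real.Wallis.le_W (2 * n + 1)
  have hn : (0 : ℝ) ≤ n := Nat.cast_nonneg n
  have h3 : ((2 : ℝ) * ((2 * n + 1 : ℕ) : ℝ) + 1) / (2 * ((2 * n + 1 : ℕ) : ℝ) + 2) =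
      1 - (1 / ((n : ℝ) + 1)) / 4 := by
    push_cast; field_simp; ring
  rw [h3] at h2
  have h4 : 0 < 1 / ((n : ℝ) + 1) := by positivity
  rw [abs_le]
  constructor <;> nlinarith [Real.pi_le_four, Real.pi_pos]

end Vale.Agent.P113
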