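import Vale.Agent.P113.Eff

/-!
Simulation of the machine on list data, and the halting amplitude.
-/

open Set

namespace Vale.Agent.P113

abbrev Data : Type := List Bool × List (List (ℕ × ℕ × ℕ)) × List ℕ
abbrev SCfg : Type := ℕ × List ℕ × List ℕ

def look (tb : List (List Tri)) (s : SCfg) : Tri := (tb.getD s.1 []).getD (s.2.2.getD 0 0) (0, 0, 0)

def simStep (tb : List (List Tri)) (s : SCfg) : SCfg :=
  bif decide ((look tb s).2.2 = 0) then
    ((look tb s).1, s.2.1.tail, s.2.1.getD 0 0 :: (look tb s).2.1 :: s.2.2.tail)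
  else bif decide ((look tb s).2.2 = 1) then ((look tb s).1, s.2.1, (look tb s).2.1 :: s.2.2.tail)
  else ((look tb s).1, (look tb s).2.1 :: s.2.1, s.2.2.tail)

def haltAt (d : Data) (n : ℕ) : Bool := d.1.getD ((simStep d.2.1)^[n] (0, [], d.2.2)).1 false

theorem c_look : Computable (fun p : List (List Tri) × SCfg => look p.1 p.2) := by
  unfold look; fun_prop

theorem c_simStep : Computable (fun p : List (List Tri) × SCfg => simStep p.1 p.2) := by
  have h := c_look
  have h0 : Computable (fun p : List (List Tri) × SCfg => decide ((look p.1 p.2).2.2 = 0)) :=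
    c_eq (c_snd (c_snd h)) (by fun_prop)
  have h1 : Computable (fun p : List (List Tri) × SCfg => decide ((look p.1 p.2).2.2 = 1)) :=
    c_eq (c_snd (c_snd h)) (by fun_prop)
  have h2 : Computable (fun p : List (List Tri) × SCfg => (look p.1 p.2).1) := c_fst h
  have h3 : Computable (fun p : List (List Tri) × SCfg => (look p.1 p.2).2.1) := c_fst (c_snd h)
  unfold simStep
  refine c_cond h0 (c_pair h2 (c_pair (by fun_prop) (c_cons (by fun_prop) (c_cons h3 (by fun_prop)))))
    (c_cond h1 (c_pair h2 (c_pair (by fun_prop) (c_cons h3 (by fun_prop))))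
      (c_pair h2 (c_pair (c_cons h3 (by fun_prop)) (by fun_prop))))

theorem c_haltAt : Computable (fun p : Data × ℕ => haltAt p.1 p.2) := by
  have h := c_iterate (n := fun p : Data × ℕ => p.2)
    (g := fun p => ((0, [], p.1.2.2) : SCfg))
    (h := fun q : (Data × ℕ) × SCfg => simStep q.1.1.2.1 q.2) (by fun_prop) (by fun_prop)
    (c_simStep.comp (g := fun q : (Data × ℕ) × SCfg => (q.1.1.2.1, q.2)) (by fun_prop))
  unfold haltAt
  exact c_getD (by fun_prop) (c_fst h) (by fun_prop)

def Rel (M : TM) (c : M.Cfg) (s : SCfg) : Prop :=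
  s.1 = c.state ∧ (∀ i : ℕ, s.2.1.getD i 0 = c.tape (c.head - 1 - i)) ∧
    ∀ i : ℕ, s.2.2.getD i 0 = c.tape (c.head + i)

theorem getD_tail (l : List ℕ) (i : ℕ) : l.tail.getD i 0 = l.getD (i + 1) 0 := by
  cases l <;> simp

theorem getD_ofFn {γ : Type} {n : ℕ} (f : Fin n → γ) (i : Fin n) (d : γ) :
    (List.ofFn f).getD i d = f i := by
  simp [List.getD_eq_getElem?_getD]

theorem look_spec (M : TM) (w : List (Fin (M.nS + 1))) (c : M.Cfg) (s : SCfg) (h : Rel M c s) :
    look (M.code w).2.1 s = (((M.delta c.state (c.tape c.head)).1 : ℕ),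
      ((M.delta c.state (c.tape c.head)).2.1 : ℕ), ((M.delta c.state (c.tape c.head)).2.2 : ℕ)) := by
  obtain ⟨h1, -, h3⟩ := h
  have h4 := h3 0
  simp only [Nat.cast_zero, add_zero] at h4
  unfold look
  rw [h1, h4]
  simp only [TM.code, getD_ofFn]

theorem rel_step (M : TM) (w : List (Fin (M.nS + 1))) (c : M.Cfg) (s : SCfg) (h : Rel M c s) :
    Rel M (M.step c) (simStep (M.code w).2.1 s) := by
  have hl := look_spec M w c s h
  obtain ⟨h1, h2, h3⟩ := h
  unfold simStep
  rw [hl]
  unfold Rel TM.step
  generalize M.delta c.state (c.tape c.head) = r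
  obtain ⟨q, a, m⟩ := r
  fin_cases m
  · simp only [Fin.zero_eta, Fin.val_zero, decide_true, Bool.cond_true, true_and]
    constructor
    · intro i
      rw [getD_tail, h2, Function.update_of_ne (by omega)]
      congr 2; push_cast; ring
    · intro i
      rcases i with _ | _ | i
      · rw [List.getD_cons_zero, h2, Function.update_of_ne (by omega)]
        congr 2; push_cast; ring
      · rw [List.getD_cons_succ, List.getD_cons_zero]
        have : c.head + ((0 : ℕ) : ℤ) - 1 + ((0 + 1 : ℕ) : ℤ) = c.head := by push_cast; ring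
        rw [this, Function.update_self]
      · rw [List.getD_cons_succ, List.getD_cons_succ, getD_tail, h3,
          Function.update_of_ne (by omega)]
        congr 2; push_cast; ring
  · simp only [Fin.mk_one, Fin.val_one, one_ne_zero, decide_false, decide_true, Bool.cond_true,
      Bool.cond_false, true_and]
    constructor
    · intro i
      rw [h2, Function.update_of_ne (by omega)]
      congr 2; push_cast; ring
    · intro i
      rcases i with _ | i
      · rw [List.getD_cons_zero]
        have : c.head + ((1 : ℕ) : ℤ) - 1 + ((0 : ℕ) : ℤ) = c.head := by push_cast; ring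
        rw [this, Function.update_self]
      · rw [List.getD_cons_succ, getD_tail, h3, Function.update_of_ne (by omega)]
        congr 2; push_cast; ring
  · simp only [Fin.reduceFinMk, Fin.val_two, OfNat.ofNat_ne_zero, OfNat.ofNat_ne_one, decide_false,
      Bool.cond_false, true_and]
    constructor
    · intro i
      rcases i with _ | i
      · rw [List.getD_cons_zero]
        have : c.head + ((2 : ℕ) : ℤ) - 1 - 1 - ((0 : ℕ) : ℤ) = c.head := by push_cast; ring
        rw [this, Function.update_self]
      · rw [List.getD_cons_succ, h2, Function.update_of_ne (by omega)]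
        congr 2; push_cast; ring
    · intro i
      rw [getD_tail, h3, Function.update_of_ne (by omega)]
      congr 2; push_cast; ring

theorem rel_init (M : TM) (w : List (Fin (M.nS + 1))) : Rel M (M.init w) (0, [], (M.code w).2.2) := by
  refine ⟨rfl, fun i => ?_, fun i => ?_⟩
  · simp only [TM.init]
    rw [if_neg (by omega)]
    simp
  · simp only [TM.init, TM.code]
    rw [if_pos (by omega)]
    simp only [zero_add, Int.toNat_natCast, List.getD_eq_getElem?_getD, List.getElem?_map]
    cases w[i]? <;> simp

theorem haltAt_spec (M : TM) (w : List (Fin (M.nS + 1))) (n : ℕ) :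
    haltAt (M.code w) n = M.halting (M.step^[n] (M.init w)).state := by
  have key : Rel M (M.step^[n] (M.init w)) ((simStep (M.code w).2.1)^[n] (0, [], (M.code w).2.2)) := by
    induction n with
    | zero => exact rel_init M w
    | succ n ih =>
      rw [Function.iterate_succ_apply', Function.iterate_succ_apply']
      exact rel_step M w _ _ ih
  unfold haltAt
  rw [key.1]
  simp only [TM.code, getD_ofFn]

noncomputable def term (d : Data) (n : ℕ) : ℝ := bif haltAt d n then (1 / 2) ^ (n + 1) else 0

theorem term_nonneg (d : Data) (n : ℕ) : 0 ≤ term d n := by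
  unfold term; cases haltAt d n <;> simp

theorem term_le (d : Data) (n : ℕ) : term d n ≤ (1 / 2) ^ (n + 1) := by
  unfold term; cases haltAt d n <;> simp

theorem summable_half : Summable (fun n : ℕ => ((1 : ℝ) / 2) ^ (n + 1)) :=
  (summable_nat_add_iff 1).2 summable_geometric_two

theorem summable_term (d : Data) : Summable (term d) :=
  Summable.of_nonneg_of_le (term_nonneg d) (term_le d) summable_half

noncomputable def amp (d : Data) : ℝ := ∑' n, term d n

theorem approx_amp : Approx amp := by
  have h1 : Approx (fun q : (Data × ℕ) × ℕ => term q.1.1 q.2) := by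
    have := (Approx.of_rat (g := fun q : (Data × ℕ) × ℕ => tpow (1, 0, 1) (q.2 + 1))
      (by fun_prop)).cond (Approx.nat (g := fun _ => 0) (by fun_prop))
      (c_haltAt.comp (g := fun q : (Data × ℕ) × ℕ => (q.1.1, q.2)) (by fun_prop))
    refine this.congr fun q => ?_
    unfold term
    rw [rat_tpow]
    have : rat (1, 0, 1) = 1 / 2 := by simp [rat]; norm_num
    simp [this]
  refine Approx.lim (h1.sum_range (N := fun p : Data × ℕ => p.2) (by fun_prop)) fun d n => ?_
  simp only
  unfold amp
  rw [← (summable_term d).sum_add_tsum_nat_add n]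
  have h2 : 0 ≤ ∑' i, term d (i + n) := tsum_nonneg fun i => term_nonneg _ _
  have h3 : ∑' i, term d (i + n) ≤ ∑' i : ℕ, ((1 : ℝ) / 2) ^ i * (1 / 2) ^ (n + 1) := by
    refine Summable.tsum_le_tsum (fun i => ?_) ((summable_nat_add_iff n).2 (summable_term d))
      (summable_geometric_two.mul_right _)
    refine (term_le _ _).trans (le_of_eq ?_)
    ring
  rw [tsum_mul_right, tsum_geometric_two] at h3
  have h4 : (n : ℝ) + 1 ≤ 2 ^ n := by
    have := Nat.lt_two_pow_self (n := n)
    exact_mod_cast this
  have h5 : 2 * ((1 : ℝ) / 2) ^ (n + 1) ≤ 1 / ((n : ℝ) + 1) := by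
    rw [pow_succ, one_div_pow]
    have : (1 : ℝ) / 2 ^ n ≤ 1 / ((n : ℝ) + 1) := one_div_le_one_div_of_le (by positivity) h4
    linarith
  rw [abs_le]
  constructor <;> linarith

theorem amp_pos_of_halts (M : TM) (w : List (Fin (M.nS + 1))) (h : M.Halts w) :
    0 < amp (M.code w) := by
  obtain ⟨n, hn⟩ := h
  refine (summable_term _).tsum_pos (term_nonneg _) n ?_
  unfold term
  rw [haltAt_spec, hn]
  simp

theorem amp_zero_of_not_halts (M : TM) (w : List (Fin (M.nS + 1))) (h : ¬ M.Halts w) :
    amp (M.code w) = 0 := by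
  have : ∀ n, term (M.code w) n = 0 := by
    intro n
    unfold term
    rw [haltAt_spec]
    have : M.halting (M.step^[n] (M.init w)).state = false := by
      by_contra h'
      exact h ⟨n, by simpa using h'⟩
    rw [this]; rfl
  simp [amp, this]

end Vale.Agent.P113
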