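import Vale.Agent.P113.Desc
import Vale.Agent.P113.Sim

/-!
The velocity field, its trajectory from the origin, and the main theorem.
-/

open MeasureTheory Set Filter Topology Real
open scoped ContDiff

namespace Vale.Agent.P113

theorem pd_congr_late {F G : R4 → ℝ} (h : ∀ p, 1 < p 0 → F p = G p) (i : Fin 4) :
    ∀ p, 1 < p 0 → pd i F p = pd i G p := by
  intro p hp
  refine Filter.EventuallyEq.deriv_eq ?_
  have hc : Continuous fun s : ℝ => Function.update p i s 0 := by fun_prop
  have : ∀ᶠ s in 𝓝 (p i), 1 < Function.update p i s 0 :=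
    hc.continuousAt.eventually (lt_mem_nhds (by simpa using hp))
  filter_upwards [this] with s hs using h _ hs

theorem forceR_congr_late {ν : ℝ} {U V : Fin 3 → R4 → ℝ} (h : ∀ i p, 1 < p 0 → U i p = V i p)
    (i : Fin 3) (p : R4) (hp : 1 < p 0) : forceR ν U i p = forceR ν V i p := by
  unfold forceR
  rw [pd_congr_late (h i) 0 p hp]
  congr 2
  · exact Finset.sum_congr rfl fun j _ => by rw [h j p hp, pd_congr_late (h i) _ p hp]
  · exact Finset.sum_congr rfl fun j _ => pd_congr_late (pd_congr_late (h i) _) _ p hp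

theorem pd_transl {F : R4 → ℝ} {v : R4} (h : ∀ p, F (p + v) = F p) (i : Fin 4) :
    ∀ p, pd i F (p + v) = pd i F p := by
  intro p
  unfold pd
  have e : (fun s : ℝ => F (Function.update p i s)) =
      fun s => (fun s => F (Function.update (p + v) i s)) (s + v i) := by
    funext s
    rw [← h]
    congr 1
    funext k
    by_cases hk : k = i
    · subst hk; simp
    · simp [hk]
  rw [e, deriv_comp_add_const (fun s => F (Function.update (p + v) i s))]
  rfl

theorem forceR_transl {ν : ℝ} {U : Fin 3 → R4 → ℝ} {v : R4} (h : ∀ i p, U i (p + v) = U i p)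
    (i : Fin 3) (p : R4) : forceR ν U i (p + v) = forceR ν U i p := by
  unfold forceR
  rw [pd_transl (h i)]
  congr 2
  · exact Finset.sum_congr rfl fun j _ => by rw [h j p, pd_transl (h i)]
  · exact Finset.sum_congr rfl fun j _ => pd_transl (pd_transl (h i) _) _ p

theorem cos_sin_congr {a b : ℝ} (h : (a : UnitAddCircle) = b) :
    cos (2 * π * a) = cos (2 * π * b) ∧ sin (2 * π * a) = sin (2 * π * b) := by
  have h1 : ((a - b : ℝ) : UnitAddCircle) = 0 := by rw [AddCircle.coe_sub, h, sub_self]
  obtain ⟨n, hn⟩ := (AddCircle.coe_eq_zero_iff (1 : ℝ)).1 h1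
  have e : 2 * π * a = 2 * π * b + n * (2 * π) := by
    have : a = b + n := by simp at hn; linarith
    rw [this]; ring
  rw [e, cos_add_int_mul_two_pi, sin_add_int_mul_two_pi]
  exact ⟨rfl, rfl⟩

noncomputable def gam (t : ℝ) : ℝ := expNegInvGlue 1 - expNegInvGlue (1 - t)
noncomputable def bet (t : ℝ) : ℝ := expNegInvGlue (1 - t) * gam t

noncomputable def shape (a c : ℝ) (p : R4) : Fin 3 → ℝ :=
  ![(a * (1 + cos (2 * π * p 1)) + c * sin (2 * π * p 1)) * cos (2 * π * p 2),
    (a * sin (2 * π * p 1) - c * cos (2 * π * p 1)) * sin (2 * π * p 2), 0]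

noncomputable def fld (A : ℝ) (i : Fin 3) (p : R4) : ℝ := shape (A * bet (p 0)) (gam (p 0)) p i

theorem per_fld (A : ℝ) (i : Fin 3) : Per (fld A i) := by
  intro p q h0 h1
  have a1 := cos_sin_congr (h1 0)
  have a2 := cos_sin_congr (h1 1)
  simp only [Fin.succ_zero_eq_one, Fin.succ_one_eq_two] at a1 a2
  unfold fld shape
  rw [h0, a1.1, a1.2, a2.1, a2.2]

theorem eff_fld (i : Fin 3) : Eff (fun d : Data => fld (amp d) i) := by
  have hg : Eff (fun (_ : Data) (p : R4) => gam (p 0)) :=
    (Eff.const approx_glue_one).sub (eff_glue 0)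
  have hb : Eff (fun (d : Data) (p : R4) => amp d * bet (p 0)) :=
    (Eff.const approx_amp).mul ((eff_glue 0).mul hg)
  have h1 : Eff (fun (_ : Data) (_ : R4) => (1 : ℝ)) :=
    (Eff.const (Approx.nat (g := fun _ => 1) (by fun_prop))).congr fun _ _ => by simp
  have h0 : Eff (fun (_ : Data) (_ : R4) => (0 : ℝ)) :=
    (Eff.const (Approx.nat (g := fun _ => 0) (by fun_prop))).congr fun _ _ => by simp
  fin_cases i
  · exact ((hb.mul (h1.add (eff_cos 1))).add (hg.mul (eff_sin 1))).mul (eff_cos 2)
  · exact ((hb.mul (eff_sin 1)).sub (hg.mul (eff_cos 1))).mul (eff_sin 2)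
  · exact h0

theorem div_fld (A : ℝ) (p : R4) : ∑ j : Fin 3, pd j.succ (fld A j) p = 0 := by
  have k : ∀ x : ℝ, HasDerivAt (fun x : ℝ => 2 * π * x) (2 * π) x := fun x => by
    simpa using (hasDerivAt_id x).const_mul (2 * π)
  have h0 : pd 1 (fld A 0) p = (A * bet (p 0) * (-sin (2 * π * p 1) * (2 * π)) +
      gam (p 0) * (cos (2 * π * p 1) * (2 * π))) * cos (2 * π * p 2) := by
    refine pd_of_hasDerivAt ?_
    have := ((((k (p 1)).cos.const_add 1).const_mul (A * bet (p 0))).fun_add
      ((k (p 1)).sin.const_mul (gam (p 0)))).mul_const (cos (2 * π * p 2))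
    simpa [fld, shape] using this
  have h1 : pd 2 (fld A 1) p = (A * bet (p 0) * sin (2 * π * p 1) -
      gam (p 0) * cos (2 * π * p 1)) * (cos (2 * π * p 2) * (2 * π)) := by
    refine pd_of_hasDerivAt ?_
    have := (k (p 2)).sin.const_mul (A * bet (p 0) * sin (2 * π * p 1) -
      gam (p 0) * cos (2 * π * p 1))
    simpa [fld, shape] using this
  have h2 : pd 3 (fld A 2) p = 0 := by
    have : fld A 2 = fun _ => 0 := by funext p; simp [fld, shape]
    rw [this, pd_const]
  rw [Fin.sum_univ_three]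
  change pd 1 _ p + pd 2 _ p + pd 3 _ p = 0
  rw [h0, h1, h2]
  ring

theorem fld_zero (A : ℝ) (i : Fin 3) (p : R4) (h : p 0 = 0) : fld A i p = 0 := by
  have : gam 0 = 0 := by simp [gam]
  fin_cases i <;> simp [fld, shape, h, bet, this]

theorem fld_late (A : ℝ) (i : Fin 3) (p : R4) (h : 1 < p 0) :
    fld A i p = shape 0 (expNegInvGlue 1) p i := by
  have : expNegInvGlue (1 - p 0) = 0 := expNegInvGlue.zero_of_nonpos (by linarith)
  simp [fld, bet, gam, this]

theorem continuous_glue : Continuous fun t : ℝ => expNegInvGlue (1 - t) :=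
  (expNegInvGlue.contDiff (n := 0)).continuous.comp (by fun_prop)

theorem continuous_gam : Continuous gam := continuous_const.sub continuous_glue

theorem continuous_bet : Continuous bet := continuous_glue.mul continuous_gam

noncomputable def Phi (t : ℝ) : ℝ := ∫ s in (0 : ℝ)..t, 2 * π * gam s
noncomputable def II (t : ℝ) : ℝ := ∫ s in (0 : ℝ)..t, 2 * π * bet s * exp (-Phi s)
noncomputable def eta (t : ℝ) : ℝ := exp (Phi t) * II t

theorem hasDerivAt_Phi (t : ℝ) : HasDerivAt Phi (2 * π * gam t) t :=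
  ((continuous_const.fun_mul continuous_gam).integral_hasStrictDerivAt 0 t).hasDerivAt

theorem continuous_Phi : Continuous Phi :=
  continuous_iff_continuousAt.2 fun t => (hasDerivAt_Phi t).continuousAt

theorem continuous_integrand : Continuous fun s => 2 * π * bet s * exp (-Phi s) := by
  have := continuous_bet
  have := continuous_Phi
  fun_prop

theorem hasDerivAt_II (t : ℝ) : HasDerivAt II (2 * π * bet t * exp (-Phi t)) t :=
  (continuous_integrand.integral_hasStrictDerivAt 0 t).hasDerivAt

theorem hasDerivAt_eta (t : ℝ) : HasDerivAt eta (2 * π * (gam t * eta t + bet t)) t := by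
  refine ((hasDerivAt_Phi t).exp.fun_mul (hasDerivAt_II t)).congr_deriv ?_
  unfold eta
  have : exp (Phi t) * exp (-Phi t) = 1 := by rw [← exp_add]; simp
  linear_combination (2 * π * bet t) * this

theorem II_one_pos : 0 < II 1 := by
  refine intervalIntegral.intervalIntegral_pos_of_pos_on
    (continuous_integrand.intervalIntegrable _ _) (fun x hx => ?_) one_pos
  have h1 : 0 < 1 - x := by linarith [hx.2]
  have h2 : 0 < gam x := by
    unfold gam expNegInvGlue
    rw [if_neg (by norm_num), if_neg (by linarith), sub_pos, exp_lt_exp, neg_lt_neg_iff]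
    exact inv_strictAnti₀ h1 (by linarith [hx.1])
  have h3 := expNegInvGlue.pos_of_pos h1
  unfold bet
  positivity

theorem II_late {t : ℝ} (ht : 1 ≤ t) : II t = II 1 := by
  unfold II
  rw [← intervalIntegral.integral_add_adjacent_intervals (b := 1)
    (continuous_integrand.intervalIntegrable _ _) (continuous_integrand.intervalIntegrable _ _)]
  have : ∫ s in (1 : ℝ)..t, 2 * π * bet s * exp (-Phi s) = ∫ s in (1 : ℝ)..t, (0 : ℝ) := by
    refine intervalIntegral.integral_congr fun s hs => ?_
    rw [uIcc_of_le ht] at hs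
    simp [bet, expNegInvGlue.zero_of_nonpos (show 1 - s ≤ 0 by linarith [hs.1])]
  simp [this]

theorem Phi_late {t : ℝ} (ht : 1 ≤ t) : Phi t = Phi 1 + (t - 1) * (2 * π * expNegInvGlue 1) := by
  have hc := continuous_const.fun_mul continuous_gam (f := fun _ : ℝ => 2 * π)
  unfold Phi
  rw [← intervalIntegral.integral_add_adjacent_intervals (b := 1)
    (hc.intervalIntegrable _ _) (hc.intervalIntegrable _ _)]
  have : ∫ s in (1 : ℝ)..t, 2 * π * gam s = ∫ s in (1 : ℝ)..t, 2 * π * expNegInvGlue 1 := by
    refine intervalIntegral.integral_congr fun s hs => ?_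
    rw [uIcc_of_le ht] at hs
    simp [gam, expNegInvGlue.zero_of_nonpos (show 1 - s ≤ 0 by linarith [hs.1])]
  rw [this, intervalIntegral.integral_const, smul_eq_mul]

theorem eta_large {A : ℝ} (hA : 0 < A) : ∃ t, 0 ≤ t ∧ 1 < A * eta t := by
  have hk : 0 < 2 * π * expNegInvGlue 1 := by
    have := expNegInvGlue.pos_of_pos one_pos
    positivity
  have hI := mul_pos hA II_one_pos
  set k := 2 * π * expNegInvGlue 1
  set r := (|Phi 1| + (A * II 1)⁻¹) / k with hr
  have hr0 : 0 ≤ r := by positivity
  refine ⟨1 + r, by linarith, ?_⟩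
  unfold eta
  rw [II_late (by linarith), Phi_late (by linarith)]
  have h1 : (1 + r - 1) * k = |Phi 1| + (A * II 1)⁻¹ := by
    rw [hr]; field_simp; ring
  have h2 := add_one_le_exp (Phi 1 + (1 + r - 1) * k)
  have h3 : (A * II 1)⁻¹ + 1 ≤ exp (Phi 1 + (1 + r - 1) * k) := by
    linarith [neg_abs_le (Phi 1)]
  have h4 := mul_le_mul_of_nonneg_left h3 hI.le
  rw [mul_add, mul_inv_cancel₀ hI.ne'] at h4
  nlinarith

noncomputable def path (A : ℝ) (t : ℝ) : Fin 3 → ℝ := ![arctan (A * eta t) / π, 0, 0]

theorem cos_two_arctan (x : ℝ) : cos (2 * π * (arctan x / π)) = 2 / (1 + x ^ 2) - 1 := by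
  have : 2 * π * (arctan x / π) = 2 * arctan x := by field_simp
  rw [this, cos_two_mul, cos_sq_arctan]
  ring

theorem sin_two_arctan (x : ℝ) : sin (2 * π * (arctan x / π)) = 2 * x / (1 + x ^ 2) := by
  have : 2 * π * (arctan x / π) = 2 * arctan x := by field_simp
  rw [this, sin_two_mul, sin_arctan, cos_arctan]
  have h : 0 < 1 + x ^ 2 := by positivity
  have h2 := Real.mul_self_sqrt h.le
  have h3 := Real.sqrt_pos.2 h
  field_simp
  rw [Real.sq_sqrt h.le]

theorem isTraj_path (A : ℝ) : IsTraj (fun t x i => desc (fld A i) t x) 0 (path A) := by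
  constructor
  · have : path A 0 = 0 := by
      funext i
      fin_cases i <;> simp [path, eta, II]
    rw [this, proj_zero]
  · intro t _
    refine HasDerivAt.hasDerivWithinAt (hasDerivAt_pi.2 fun i => ?_)
    simp only [desc_proj (per_fld A _)]
    fin_cases i
    · have := (((hasDerivAt_eta t).const_mul A).arctan).div_const π
      refine this.congr_deriv ?_
      have e1 : (Fin.cons t (path A t) : R4) 1 = arctan (A * eta t) / π := rfl
      have e2 : (Fin.cons t (path A t) : R4) 2 = 0 := rfl
      simp only [fld, shape, Fin.zero_eta, Matrix.cons_val_zero, e1, e2, cos_two_arctan,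
        sin_two_arctan, Fin.cons_zero, mul_zero, cos_zero]
      field_simp
      ring
    · have e2 : (Fin.cons t (path A t) : R4) 2 = 0 := rfl
      simpa [fld, shape, e2, path] using hasDerivAt_const t (0 : ℝ)
    · simpa [fld, shape, path] using hasDerivAt_const t (0 : ℝ)

theorem per_cos : Per fun p : R4 => cos (2 * π * p 1) :=
  fun _ _ _ h1 => (cos_sin_congr (h1 0)).1

def target : Set T3 := {x | desc (fun p : R4 => cos (2 * π * p 1)) 0 x < 0}

theorem isOpen_target : IsOpen target := by
  have := continuous_desc per_cos (by fun_prop)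
  exact isOpen_lt (this.comp (f := fun x : T3 => ((0 : ℝ), x)) (by fun_prop)) continuous_const

theorem path_mem (A t : ℝ) : proj (path A t) ∈ target ↔ 1 < (A * eta t) ^ 2 := by
  unfold target
  rw [mem_ofPred_eq, desc_proj per_cos]
  have e1 : (Fin.cons 0 (path A t) : R4) 1 = arctan (A * eta t) / π := rfl
  rw [e1, cos_two_arctan, sub_neg, div_lt_one (by positivity)]
  constructor <;> intro h <;> linarith

theorem main (ν : ℝ) (hν : 0 < ν) (hc : ComputableReal ν) :
    ∃ (a : T3) (O : Set T3)
      (compile : List Bool × List (List (ℕ × ℕ × ℕ)) × List ℕ → Nat.Partrec.Code)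
      (f : (M : TM) → List (Fin (M.nS + 1)) → ℝ → T3 → Fin 3 → ℝ) (T₀ : ℝ),
      IsOpen O ∧ Computable compile ∧
      (∀ M w, (∀ i, Smooth fun t x => f M w t x i) ∧ Computes (compile (M.code w)) (f M w)) ∧
      (∀ M, ∃ τ > 0, ∀ w, ∀ t ≥ T₀, f M w (t + τ) = f M w t) ∧
      (∀ M w w', ∀ t ≥ T₀, f M w t = f M w' t) ∧
      ∀ M w, ∃ (u : ℝ → T3 → Fin 3 → ℝ) (p : ℝ → T3 → ℝ),
        (∀ i, Smooth fun t x => u t x i) ∧ Smooth p ∧
        (∀ T > 0, Classical ν (f M w) T u p) ∧
        (∀ T > 0, ∀ v q, Classical ν (f M w) T v q → ∀ t ∈ Icc 0 T, v t = u t ∧ q t = p t) ∧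
        (∃ X, IsTraj u a X) ∧
        ∀ X, IsTraj u a X → ((∃ t ≥ 0, proj (X t) ∈ O) ↔ M.Halts w) := by
  have hE := eff_forceR hc (U := fun d : Data => fld (amp d)) eff_fld
  have hP : ∀ (d : Data) i, Per (forceR ν (fld (amp d)) i) := fun d => per_forceR (per_fld _)
  obtain ⟨compile, h1, h2⟩ := exists_compiler hE hP
  have late : ∀ (d : Data) i t x, 2 ≤ t → desc (forceR ν (fld (amp d)) i) t x =
      desc (forceR ν (fun i p => shape 0 (expNegInvGlue 1) p i) i) t x := fun d i t x ht =>
    forceR_congr_late (fld_late _) i _ (by simp only [Fin.cons_zero]; linarith)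
  refine ⟨0, target, compile, fun M w t x i => desc (forceR ν (fld (amp (M.code w))) i) t x, 2,
    isOpen_target, h1, fun M w => ⟨fun i => ?_, h2 _⟩, fun M => ⟨1, one_pos, fun w t ht => ?_⟩,
    fun M w w' t ht => ?_, fun M w => ?_⟩
  · unfold Smooth
    rw [lift_desc (hP _ i)]
    exact (hE i).1 _
  · funext x i
    beta_reduce
    rw [late _ i _ x ht, late _ i _ x (by linarith)]
    unfold desc
    rw [← forceR_transl (v := Pi.single 0 1) _ i (Fin.cons t _)]
    · congr 1
      funext k
      refine Fin.cases ?_ (fun j => ?_) k <;> simp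
    · intro i p
      simp [shape]
  · funext x i
    beta_reduce
    rw [late _ i _ x ht, late _ i _ x ht]
  · set A := amp (M.code w) with hA
    have hs : ∀ i, ContDiff ℝ ∞ (fld A i) := fun i => (eff_fld i).1 (M.code w)
    have hcl := fun T => classical_desc ν T (per_fld A) hs (div_fld A) (fld_zero A)
    refine ⟨fun t x i => desc (fld A i) t x, fun _ _ => 0, fun i => ?_, contDiff_const,
      fun T _ => hcl T, fun T hT v q hv => classical_unique hν.le hT hv (hcl T),
      ⟨_, isTraj_path A⟩, fun X hX => ?_⟩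
    · unfold Smooth
      rw [lift_desc (per_fld A i)]
      exact hs i
    · have hu := fun t (ht : 0 ≤ t) => traj_unique (per_fld A) hs hX (isTraj_path A) ht
      constructor
      · rintro ⟨t, ht, hO⟩
        rw [hu t ht, path_mem] at hO
        by_contra hn
        rw [hA, amp_zero_of_not_halts M w hn] at hO
        norm_num at hO
      · intro hh
        obtain ⟨t, ht, h⟩ := eta_large (amp_pos_of_halts M w hh)
        refine ⟨t, ht, ?_⟩
        rw [hu t ht, path_mem]
        nlinarith

end Vale.Agent.P113
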